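import Vale.Agent.P153.Asm.Plane

/-!
# The concrete mesoscopic boxes
-/

namespace Vale.Agent.P153.Asm

open Finset

/-- Rows `I0 * K, (I0 + 1) * K, ...`, blocks of `l` sites with indices in `C`. -/
def bgeo (K : ℕ) (I0 : ℤ) (C : Finset ℤ) (l : ℕ) : Geo (↥C × Fin l) ↥C where
  K := K
  I0 := I0
  x := fun i => (i.1 : ℤ) * l + ((i.2 : ℕ) : ℤ)
  b := fun i => i.1

/-- The weights. -/
noncomputable def bwt (g : ℝ × ℝ → ℝ) (L : ℝ) (K : ℕ) (I0 : ℤ) (C : Finset ℤ) (l : ℕ) (j : ℕ)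
    (i : ↥C × Fin l) : ℝ :=
  L⁻¹ * g (((I0 + j : ℤ) : ℝ) * K / L, (((i.1 : ℤ) * l + ((i.2 : ℕ) : ℤ) : ℤ) : ℝ) / L)

/-- Kernel of a translation invariant mean square difference. -/
def tV (V : ℤ → ℤ → ℝ) (p q : ℤ × ℤ) : ℝ := V (p.1 - q.1) (p.2 - q.2)

end Vale.Agent.P153.Asm
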