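import Mathlib.Topology.Algebra.InfiniteSum.Real
import Mathlib.Analysis.Normed.Group.Tannery
import Mathlib.Analysis.SpecificLimits.Basic

/-!
# Averages of a summable kernel over blocks
-/

namespace Vale.Agent.P153.Asm

open Filter Finset
open scoped Topology

/-- Number of pairs of sites of a block of length `l` at distance `z`. -/
def npair (l : ℕ) (z : ℤ) : ℕ :=
  ((range l ×ˢ range l).filter fun p => (p.1 : ℤ) - (p.2 : ℤ) = z).card

lemma npair_le (l : ℕ) (z : ℤ) : npair l z ≤ l := by
  unfold npair
  have h1 : ((range l ×ˢ range l).filter fun p => (p.1 : ℤ) - (p.2 : ℤ) = z).card ≤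
      (range l).card := by
    refine Finset.card_le_card_of_injOn Prod.fst ?_ ?_
    · intro p hp
      have := (Finset.mem_filter.1 hp).1
      exact (Finset.mem_product.1 this).1
    · intro p hp q hq hpq
      have h1 := (Finset.mem_filter.1 (Finset.mem_coe.1 hp)).2
      have h2 := (Finset.mem_filter.1 (Finset.mem_coe.1 hq)).2
      ext
      · exact hpq
      · have h3 : p.1 = q.1 := hpq
        rw [h3] at h1
        have : (p.2 : ℤ) = q.2 := by linarith
        exact_mod_cast this
  simpa using h1

lemma le_npair (l : ℕ) (z : ℤ) : l - z.natAbs ≤ npair l z := by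
  unfold npair
  rw [← Finset.card_range (l - z.natAbs)]
  refine Finset.card_le_card_of_injOn (fun k => (k + z.toNat, k + (-z).toNat)) ?_ ?_
  · intro k hk
    rw [Finset.mem_coe, Finset.mem_range] at hk
    rw [Finset.mem_coe, Finset.mem_filter, Finset.mem_product, Finset.mem_range, Finset.mem_range]
    simp only
    refine ⟨⟨by omega, by omega⟩, ?_⟩
    push_cast
    have := Int.toNat_sub_toNat_neg z
    linarith
  · intro k _ k' _ hkk
    have := congrArg Prod.fst hkk
    simp only at this
    omega

lemma sum_pairs (c : ℤ → ℝ) (l : ℕ) :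
    ∑ x ∈ range l, ∑ y ∈ range l, c ((x : ℤ) - y) = ∑' z, c z * npair l z := by
  have h0 : ∀ z, z ∉ Finset.Icc (-(l : ℤ)) l → c z * npair l z = 0 := by
    intro z hz
    have : npair l z = 0 := by
      unfold npair
      rw [Finset.card_eq_zero, Finset.filter_eq_empty_iff]
      intro p hp h1
      rw [Finset.mem_product, Finset.mem_range, Finset.mem_range] at hp
      exact hz (Finset.mem_Icc.2 ⟨by omega, by omega⟩)
    rw [this]
    simp
  rw [tsum_eq_sum h0, ← Finset.sum_product']
  have h1 : ∀ z, c z * (npair l z : ℝ) =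
      ∑ p ∈ range l ×ˢ range l, if (p.1 : ℤ) - (p.2 : ℤ) = z then c z else 0 := by
    intro z
    rw [← Finset.sum_filter, Finset.sum_const, nsmul_eq_mul, mul_comm]
    rfl
  simp only [h1]
  rw [Finset.sum_comm]
  refine Finset.sum_congr rfl fun p hp => ?_
  rw [Finset.mem_product, Finset.mem_range, Finset.mem_range] at hp
  rw [Finset.sum_ite_eq]
  rw [if_pos (Finset.mem_Icc.2 ⟨by omega, by omega⟩)]

/-- Block averages of a summable kernel. -/
theorem cesaro {c : ℤ → ℝ} (hc : Summable c) (h0 : ∀ z, 0 ≤ c z) :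
    Tendsto (fun l : ℕ => (1 / (l : ℝ)) * ∑ x ∈ range l, ∑ y ∈ range l, c ((x : ℤ) - y)) atTop
      (𝓝 (∑' z, c z)) := by
  have e : ∀ l : ℕ, (1 / (l : ℝ)) * ∑ x ∈ range l, ∑ y ∈ range l, c ((x : ℤ) - y) =
      ∑' z, c z * ((npair l z : ℝ) / l) := by
    intro l
    rw [sum_pairs, ← tsum_mul_left]
    exact tsum_congr fun z => by ring
  simp only [e]
  refine tendsto_tsum_of_dominated_convergence hc ?_ ?_
  · intro z
    have h1 : Tendsto (fun l : ℕ => (npair l z : ℝ) / l) atTop (𝓝 1) := by
      have h2 : Tendsto (fun l : ℕ => 1 - (z.natAbs : ℝ) / l) atTop (𝓝 (1 - 0)) :=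
        tendsto_const_nhds.sub (tendsto_const_nhds.div_atTop tendsto_natCast_atTop_atTop)
      rw [sub_zero] at h2
      refine tendsto_of_tendsto_of_tendsto_of_le_of_le' h2 tendsto_const_nhds ?_ ?_
      · filter_upwards [eventually_gt_atTop 0] with l hl
        have hl' : (0 : ℝ) < l := by exact_mod_cast hl
        rw [le_div_iff₀ hl', sub_mul, one_mul, div_mul_cancel₀ _ hl'.ne']
        have h3 := le_npair l z
        have h4 : (l : ℝ) ≤ npair l z + z.natAbs := by
          have : l ≤ npair l z + z.natAbs := by omega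
          exact_mod_cast this
        linarith
      · filter_upwards [eventually_gt_atTop 0] with l hl
        have hl' : (0 : ℝ) < l := by exact_mod_cast hl
        rw [div_le_one hl']
        exact_mod_cast npair_le l z
    simpa using h1.const_mul (c z)
  · refine Eventually.of_forall fun l z => ?_
    rw [Real.norm_eq_abs, abs_mul, abs_of_nonneg (h0 z)]
    have h1 : |(npair l z : ℝ) / l| ≤ 1 := by
      rw [abs_of_nonneg (by positivity)]
      rcases Nat.eq_zero_or_pos l with rfl | hl
      · simp
      · have hl' : (0 : ℝ) < l := by exact_mod_cast hl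
        rw [div_le_one hl']
        exact_mod_cast npair_le l z
    exact mul_le_of_le_one_right (h0 z) h1

/-- The averages are at most the sum. -/
theorem cesaro_le {c : ℤ → ℝ} (hc : Summable c) (h0 : ∀ z, 0 ≤ c z) (l : ℕ) :
    ∑ x ∈ range l, ∑ y ∈ range l, c ((x : ℤ) - y) ≤ l * ∑' z, c z := by
  rw [sum_pairs, ← tsum_mul_left]
  refine Summable.tsum_le_tsum (fun z => ?_) ?_ (hc.mul_left _)
  · rw [mul_comm]
    exact mul_le_mul_of_nonneg_right (by exact_mod_cast npair_le l z) (h0 z)
  · refine Summable.of_nonneg_of_le (fun z => mul_nonneg (h0 z) (Nat.cast_nonneg _))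
      (fun z => ?_) (hc.mul_left (l : ℝ))
    rw [mul_comm]
    exact mul_le_mul_of_nonneg_right (by exact_mod_cast npair_le l z) (h0 z)

end Vale.Agent.P153.Asm
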