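import Vale.Agent.P153.Asm.Box
import Vale.Agent.P153.TwoPt.Defs

/-!
# The approximation error as a combination of the two-point sums
-/

namespace Vale.Agent.P153.Asm

open MeasureTheory Filter Finset
open scoped Topology
open Vale.Agent.P153.CLT Vale.Agent.P153.TwoPt

/-! ### conversion of sums -/

lemma fsum {f : ℤ → ℝ} {S : Finset ℤ} (h : ∀ i, i ∉ S → f i = 0) : ∑ᶠ i, f i = ∑ i ∈ S, f i :=
  finsum_eq_sum_of_support_subset f fun i hi => by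
    by_contra h'
    exact hi (h i h')

/-- A sum over all blocks is a sum over all positions. -/
lemma box_sum {C : Finset ℤ} {l : ℕ} (hl : 0 < l) (F : ℤ → ℝ)
    (hF : ∀ x : ℤ, x / (l : ℤ) ∉ C → F x = 0) :
    ∑ i : ↥C × Fin l, F ((i.1 : ℤ) * l + ((i.2 : ℕ) : ℤ)) = ∑ᶠ x, F x := by
  classical
  have hl' : (0 : ℤ) < l := by exact_mod_cast hl
  have h1 : ∑ᶠ x, F x = ∑ x ∈ (C ×ˢ range l).image (fun p : ℤ × ℕ => p.1 * l + (p.2 : ℤ)), F x := by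
    refine fsum fun x hx => hF x fun hc => hx ?_
    refine Finset.mem_image.2 ⟨(x / l, (x % l).toNat), ?_, ?_⟩
    · rw [Finset.mem_product, Finset.mem_range]
      refine ⟨hc, ?_⟩
      have h2 := Int.emod_nonneg x hl'.ne'
      have h3 := Int.emod_lt_of_pos x hl'
      simp only
      omega
    · simp only
      rw [Int.toNat_of_nonneg (Int.emod_nonneg x hl'.ne')]
      have := Int.emod_add_mul_ediv x l
      linarith
  rw [h1, Finset.sum_image, Finset.sum_product, Fintype.sum_prod_type]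
  · rw [← Finset.sum_coe_sort C]
    refine Finset.sum_congr rfl fun c _ => ?_
    rw [← Fin.sum_univ_eq_sum_range (fun r : ℕ => F ((c : ℤ) * l + (r : ℤ)))]
  · intro p hp q hq hpq
    rw [Finset.mem_coe, Finset.mem_product, Finset.mem_range] at hp hq
    simp only at hpq
    have e : ∀ (c : ℤ) (r : ℕ), r < l → (c * l + (r : ℤ)) / l = c ∧ (c * l + (r : ℤ)) % l = r := by
      intro c r hr
      have hr' : (r : ℤ) < l := by exact_mod_cast hr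
      have hr0 : (0 : ℤ) ≤ r := Int.natCast_nonneg _
      constructor
      · rw [add_comm, Int.add_mul_ediv_right _ _ hl'.ne', Int.ediv_eq_zero_of_lt hr0 hr', zero_add]
      · rw [add_comm, Int.add_mul_emod_self_right, Int.emod_eq_of_lt hr0 hr']
    have a1 := e p.1 p.2 hp.2
    have a2 := e q.1 q.2 hq.2
    rw [hpq] at a1
    ext
    · rw [← a1.1, a2.1]
    · have : (p.2 : ℤ) = q.2 := by rw [← a1.2, a2.2]
      exact_mod_cast this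

/-- A sum over the steps is a sum over the rows. -/
lemma row_sum {I0 : ℤ} {J : ℕ} (F : ℤ → ℝ) (hF : ∀ i, i ∉ Finset.Ico I0 (I0 + J) → F i = 0) :
    ∑ j ∈ range J, F (I0 + j) = ∑ᶠ i, F i := by
  classical
  have h1 : ∑ᶠ i, F i = ∑ i ∈ (range J).image (fun j : ℕ => I0 + (j : ℤ)), F i := by
    refine fsum fun i hi => hF i fun hc => hi ?_
    rw [Finset.mem_Ico] at hc
    refine Finset.mem_image.2 ⟨(i - I0).toNat, ?_, ?_⟩
    · rw [Finset.mem_range]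
      omega
    · have := Int.toNat_of_nonneg (sub_nonneg.2 hc.1)
      rw [this]
      ring
  rw [h1, Finset.sum_image]
  intro j _ j' _ h
  have : (j : ℤ) = j' := by simpa using h
  exact_mod_cast this

lemma prod_sum {A1 A2 : Finset ℤ} (F : ℤ → ℤ → ℝ) (hF : ∀ j y, j ∉ A1 ∨ y ∉ A2 → F j y = 0) :
    ∑ᶠ j, ∑ᶠ y, F j y = ∑ w ∈ A1 ×ˢ A2, F w.1 w.2 := by
  rw [Finset.sum_product]
  have h1 : ∀ j, ∑ᶠ y, F j y = ∑ y ∈ A2, F j y := fun j => fsum fun y hy => hF j y (Or.inr hy)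
  simp only [h1]
  exact fsum fun j hj => Finset.sum_eq_zero fun y _ => hF j y (Or.inl hj)

lemma pair_sum {A1 A2 : Finset ℤ} (F : ℤ × ℤ → ℝ) (hF : ∀ p : ℤ × ℤ, p.1 ∉ A1 ∨ p.2 ∉ A2 → F p = 0) :
    ∑ᶠ p, F p = ∑ w ∈ A1 ×ˢ A2, F w :=
  finsum_eq_sum_of_support_subset F fun p hp => by
    by_contra h
    refine hp (hF p ?_)
    rw [Finset.mem_coe, Finset.mem_product, not_and_or] at h
    exact h

/-! ### the three sums -/

section

variable {V : ℤ → ℤ → ℝ} {a : ℤ → ℤ → ℝ} {A1 A2 : Finset ℤ} {g : ℝ × ℝ → ℝ} {L : ℝ} {K : ℕ}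
  {I0 : ℤ} {J : ℕ} {C : Finset ℤ} {l : ℕ}

lemma varX_eq (ha : ∀ j y, j ∉ A1 ∨ y ∉ A2 → a j y = 0) :
    varX V a = (-(1 / 2)) * ∑ w ∈ A1 ×ˢ A2, ∑ w' ∈ A1 ×ˢ A2, a w.1 w.2 * a w'.1 w'.2 *
      tV V w w' := by
  unfold varX tV
  congr 1
  rw [pair_sum (A1 := A1) (A2 := A2)]
  · refine Finset.sum_congr rfl fun w _ => ?_
    rw [pair_sum (A1 := A1) (A2 := A2)]
    intro p hp
    rw [ha _ _ hp]
    ring
  · intro p hp
    rw [ha _ _ hp]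
    simp

lemma crV_site (j : ℕ) (w : ℤ × ℤ) (i : ↥C × Fin l) :
    crV (tV V) ((bgeo K I0 C l).l j) w ((bgeo K I0 C l).site j i) =
      (V (w.1 - (I0 + j) * K + K) (w.2 - ((i.1 : ℤ) * l + ((i.2 : ℕ) : ℤ))) -
        V (w.1 - (I0 + j) * K - K) (w.2 - ((i.1 : ℤ) * l + ((i.2 : ℕ) : ℤ)))) / 2 := by
  unfold crV tV rho Geo.site Geo.l bgeo
  simp only
  congr 2
  · congr 1
    push_cast
    ring
  · congr 1
    push_cast
    ring

lemma crV_site_site (j : ℕ) (i i' : ↥C × Fin l) :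
    crV (tV V) ((bgeo K I0 C l).l j) ((bgeo K I0 C l).site j i) ((bgeo K I0 C l).site j i') =
      CK V K (((i.1 : ℤ) * l + ((i.2 : ℕ) : ℤ)) - ((i'.1 : ℤ) * l + ((i'.2 : ℕ) : ℤ))) := by
  unfold crV tV rho Geo.site Geo.l bgeo CK
  simp only
  congr 2
  · congr 1
    push_cast
    ring
  · congr 1
    push_cast
    ring

lemma covXX_eq (ha : ∀ j y, j ∉ A1 ∨ y ∉ A2 → a j y = 0) (hl : 0 < l)
    (hg1 : ∀ i : ℤ, i ∉ Finset.Ico I0 (I0 + J) → ∀ y : ℝ, g ((i : ℝ) * K / L, y) = 0)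
    (hg2 : ∀ x : ℤ, x / (l : ℤ) ∉ C → ∀ t : ℝ, g (t, (x : ℝ) / L) = 0) :
    covXX V a K L g = ∑ j ∈ range J, ∑ i, bwt g L K I0 C l j i * ∑ w ∈ A1 ×ˢ A2,
      (if (bgeo K I0 C l).l j < w.1 then a w.1 w.2 *
        crV (tV V) ((bgeo K I0 C l).l j) w ((bgeo K I0 C l).site j i) else 0) := by
  set In : ℤ → ℤ → ℝ := fun i x => ∑ᶠ j : ℤ, ∑ᶠ y : ℤ, (if i * K < j then a j y *
    ((V (j - i * K + K) (y - x) - V (j - i * K - K) (y - x)) / 2) else 0) with hIn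
  have hIn' : ∀ i x, In i x = ∑ w ∈ A1 ×ˢ A2, (if i * K < w.1 then a w.1 w.2 *
      ((V (w.1 - i * K + K) (w.2 - x) - V (w.1 - i * K - K) (w.2 - x)) / 2) else 0) := by
    intro i x
    rw [hIn]
    refine prod_sum (A1 := A1) (A2 := A2) (fun j y => (if i * K < j then a j y *
      ((V (j - i * K + K) (y - x) - V (j - i * K - K) (y - x)) / 2) else 0)) fun j y hjy => ?_
    rw [ha _ _ hjy]
    simp
  set F : ℤ → ℤ → ℝ := fun i x => L⁻¹ * g ((i : ℝ) * K / L, (x : ℝ) / L) * In i x with hF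
  have e1 : covXX V a K L g = ∑ᶠ i : ℤ, ∑ᶠ x : ℤ, F i x := rfl
  have e2 : ∀ i, ∑ᶠ x : ℤ, F i x = ∑ k : ↥C × Fin l, F i ((k.1 : ℤ) * l + ((k.2 : ℕ) : ℤ)) := by
    intro i
    refine (box_sum hl (F i) fun x hx => ?_).symm
    simp only [hF]
    rw [hg2 x hx]
    ring
  rw [e1]
  simp only [e2]
  rw [← row_sum (I0 := I0) (J := J)]
  · refine Finset.sum_congr rfl fun j _ => Finset.sum_congr rfl fun i _ => ?_
    rw [hF]
    simp only
    rw [hIn']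
    unfold bwt
    congr 1
    · refine Finset.sum_congr rfl fun w _ => ?_
      rw [crV_site]
      rfl
  · intro i hi
    refine Finset.sum_eq_zero fun k _ => ?_
    rw [hF]
    simp only
    rw [hg1 i hi]
    ring

lemma varX'_eq' (hl : 0 < l)
    (hg1 : ∀ i : ℤ, i ∉ Finset.Ico I0 (I0 + J) → ∀ y : ℝ, g ((i : ℝ) * K / L, y) = 0)
    (hg2 : ∀ x : ℤ, x / (l : ℤ) ∉ C → ∀ t : ℝ, g (t, (x : ℝ) / L) = 0) :
    varX' V K L g = ∑ j ∈ range J, ∑ i, ∑ i', bwt g L K I0 C l j i * bwt g L K I0 C l j i' *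
      crV (tV V) ((bgeo K I0 C l).l j) ((bgeo K I0 C l).site j i) ((bgeo K I0 C l).site j i') := by
  have e1 : ∀ i x : ℤ, ∑ᶠ y : ℤ, (L⁻¹ * g ((i : ℝ) * K / L, (x : ℝ) / L)) *
      (L⁻¹ * g ((i : ℝ) * K / L, (y : ℝ) / L)) * CK V K (x - y) =
      ∑ k : ↥C × Fin l, (L⁻¹ * g ((i : ℝ) * K / L, (x : ℝ) / L)) *
      (L⁻¹ * g ((i : ℝ) * K / L, (((k.1 : ℤ) * l + ((k.2 : ℕ) : ℤ) : ℤ) : ℝ) / L)) *
      CK V K (x - ((k.1 : ℤ) * l + ((k.2 : ℕ) : ℤ))) := by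
    intro i x
    refine (box_sum hl (fun y : ℤ => (L⁻¹ * g ((i : ℝ) * K / L, (x : ℝ) / L)) *
      (L⁻¹ * g ((i : ℝ) * K / L, (y : ℝ) / L)) * CK V K (x - y)) fun y hy => ?_).symm
    rw [hg2 y hy]
    ring
  unfold varX'
  simp only [e1]
  have e2 : ∀ i : ℤ, ∑ᶠ x : ℤ, ∑ k : ↥C × Fin l, (L⁻¹ * g ((i : ℝ) * K / L, (x : ℝ) / L)) *
      (L⁻¹ * g ((i : ℝ) * K / L, (((k.1 : ℤ) * l + ((k.2 : ℕ) : ℤ) : ℤ) : ℝ) / L)) *
      CK V K (x - ((k.1 : ℤ) * l + ((k.2 : ℕ) : ℤ))) =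
      ∑ m : ↥C × Fin l, ∑ k : ↥C × Fin l,
      (L⁻¹ * g ((i : ℝ) * K / L, (((m.1 : ℤ) * l + ((m.2 : ℕ) : ℤ) : ℤ) : ℝ) / L)) *
      (L⁻¹ * g ((i : ℝ) * K / L, (((k.1 : ℤ) * l + ((k.2 : ℕ) : ℤ) : ℤ) : ℝ) / L)) *
      CK V K (((m.1 : ℤ) * l + ((m.2 : ℕ) : ℤ)) - ((k.1 : ℤ) * l + ((k.2 : ℕ) : ℤ))) := by
    intro i
    refine (box_sum hl (fun x : ℤ => ∑ k : ↥C × Fin l,
      (L⁻¹ * g ((i : ℝ) * K / L, (x : ℝ) / L)) *
      (L⁻¹ * g ((i : ℝ) * K / L, (((k.1 : ℤ) * l + ((k.2 : ℕ) : ℤ) : ℤ) : ℝ) / L)) *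
      CK V K (x - ((k.1 : ℤ) * l + ((k.2 : ℕ) : ℤ)))) fun x hx => ?_).symm
    refine Finset.sum_eq_zero fun k _ => ?_
    rw [hg2 x hx]
    ring
  simp only [e2]
  rw [← row_sum (I0 := I0) (J := J)]
  · refine Finset.sum_congr rfl fun j _ => Finset.sum_congr rfl fun i _ =>
      Finset.sum_congr rfl fun i' _ => ?_
    rw [crV_site_site]
    rfl
  · intro i hi
    refine Finset.sum_eq_zero fun m _ => Finset.sum_eq_zero fun k _ => ?_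
    rw [hg1 i hi]
    ring

/-- The approximation error. -/
theorem err2_eq (ha : ∀ j y, j ∉ A1 ∨ y ∉ A2 → a j y = 0) (hl : 0 < l)
    (hg1 : ∀ i : ℤ, i ∉ Finset.Ico I0 (I0 + J) → ∀ y : ℝ, g ((i : ℝ) * K / L, y) = 0)
    (hg2 : ∀ x : ℤ, x / (l : ℤ) ∉ C → ∀ t : ℝ, g (t, (x : ℝ) / L) = 0) :
    err2 (tV V) (bgeo K I0 C l) (A1 ×ˢ A2) (fun w => a w.1 w.2) (bwt g L K I0 C l) J =
      varX V a - 2 * covXX V a K L g + varX' V K L g := by
  unfold err2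
  rw [varX_eq ha, covXX_eq ha hl hg1 hg2, varX'_eq' hl hg1 hg2]

end

end Vale.Agent.P153.Asm
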