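import Vale.Agent.P153.Asm.Meso2

/-!
# The central limit theorem for the even rows
-/

namespace Vale.Agent.P153.Asm

open MeasureTheory Filter Finset
open scoped Topology
open Vale.Agent.P153.CLT Vale.Agent.P153.TwoPt

open TwoPt.P6 TwoPt.Cn in
/-- The sums of the covariances of the projected increments are nonnegative. -/
theorem TK_sum_nonneg {V : ℤ → ℤ → ℝ} {m : ProbabilityTheory.Kernel ℝ ℝ} {c κ C k0 : ℝ}
    (hS : TwoPt.Spec V m c κ C k0) (K l : ℕ) :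
    0 ≤ ∑ x ∈ range l, ∑ y ∈ range l, TK V K ((x : ℤ) - y) := by
  have h0 : ∀ᵐ k : ℝ, k ≠ 0 := by
    rw [ae_iff]; simp
  have hF0 : ∀ᵐ k : ℝ, |k| ≤ Real.pi → 0 ≤ FK m K k := by
    filter_upwards [ae_Ai_lt hS, hS.supp, h0] with k hA' hs hk0 hk
    exact FK_nonneg hs (hA' hk hk0) K
  simp_rw [TK_eq hS]
  rw [sum_cc_eq (int_FK hS K)]
  refine mul_nonneg (by positivity) (setIntegral_nonneg_of_ae_restrict ?_)
  filter_upwards [ae_restrict_of_ae hF0, ae_restrict_mem measurableSet_Icc] with k hk hm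
  exact mul_nonneg (fej_nonneg _ _) (hk (abs_le.2 ⟨hm.1, hm.2⟩))

lemma small_root {x σ δ : ℝ} (hx0 : 0 ≤ x)
    (hx : x ≤ min 1 (δ / (8 * (2 + Real.sqrt σ)))) :
    x + x * (2 * Real.sqrt σ + x) / 2 ≤ δ / 8 := by
  have hs := Real.sqrt_nonneg σ
  have h1 : x ≤ 1 := hx.trans (min_le_left _ _)
  have h2 : x ≤ δ / (8 * (2 + Real.sqrt σ)) := hx.trans (min_le_right _ _)
  rw [le_div_iff₀ (by positivity)] at h2
  nlinarith [mul_nonneg hx0 hs]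

lemma mul_frac_le {δ A x : ℝ} (hA : 0 ≤ A) (hδ : 0 ≤ δ) (hx : x = δ / (8 * (A + 1))) :
    A * x ≤ δ / 8 := by
  rw [hx, ← mul_div_assoc, div_le_div_iff₀ (by positivity) (by norm_num)]
  nlinarith

lemma total_arith {y z e σ s v ρ c8 m1 m2 δ : ℝ}
    (h1 : y ≤ e + c8 + (m1 + m2) + ρ) (h2 : z ≤ |s - σ| / 2)
    (h3 : |v - σ| ≤ e * (2 * Real.sqrt σ + e)) (h4 : e + e * (2 * Real.sqrt σ + e) / 2 ≤ δ / 8)
    (h5 : |s - v| ≤ δ / 8 + δ / 8) (h6 : c8 ≤ δ / 8) (h7 : m1 ≤ δ / 8) (h8 : m2 ≤ δ / 8)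
    (h9 : ρ = δ / 8) (hδ : 0 < δ) : y + z < δ := by
  have h10 : |s - σ| ≤ |s - v| + |v - σ| := abs_sub_le _ _ _
  linarith

/-- **Row central limit theorem**, characteristic functions. -/
theorem row_ei {P : Measure (ℤ × ℤ → ℤ)} (hP : GFF.Plane P) (hR : RowLim P hev 2)
    {m : ProbabilityTheory.Kernel ℝ ℝ} {c κ C k0 : ℝ}
    (hSp : TwoPt.Spec (GFF.Vrow P) m c κ C k0) {f : ℝ × ℝ → ℝ} {L : ℕ → ℝ} {a : ℕ → ℤ → ℤ → ℝ}
    {M : ℝ} (hf : ContDiff ℝ 2 f) (hf0 : ∫ z, f z = 0) (hD : TwoPt.Disc f L a M) :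
    Tendsto (fun n => ∫ φ, ei (∑ᶠ p : ℤ × ℤ, a n p.1 p.2 * hev p φ) ∂P) atTop
      (𝓝 ((Real.exp (-sig c κ f / 2) : ℝ) : ℂ)) := by
  rw [Metric.tendsto_nhds]
  intro δ hδ
  have hκ := hSp.κ_nonneg
  -- the approximating function
  obtain ⟨ε1, hε1⟩ : ∃ ε1 : ℝ, ε1 = (min 1 (δ / (8 * (2 + Real.sqrt (sig c κ f))))) ^ 2 / 2 :=
    ⟨_, rfl⟩
  have hy0 : 0 < min 1 (δ / (8 * (2 + Real.sqrt (sig c κ f)))) := by positivity
  have hε10 : 0 < ε1 := by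
    rw [hε1]
    positivity
  obtain ⟨g, hg, hgc, hg5⟩ := p5 c κ hSp.c_pos hκ f hf hD.f_supp hf0 ε1 hε10
  obtain ⟨q, hq0, hmeso⟩ := meso hP hR hSp f L a M hD g hg hgc
  have hclose := closeVar hP hR hSp f L a M hD g hg hgc
  have hI20 : 0 ≤ ∫ z, g z ^ 2 := integral_nonneg fun z => sq_nonneg _
  obtain ⟨I2, hI2⟩ : ∃ I2 : ℝ, I2 = ∫ z, g z ^ 2 := ⟨_, rfl⟩
  rw [← hI2] at hg5 hclose hI20 hmeso
  -- the parameters
  obtain ⟨S4, hS4⟩ : ∃ S4 : ℝ, S4 = (κ + 1) * I2 + 4 := ⟨_, rfl⟩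
  have hS40 : 0 < S4 := by
    rw [hS4]
    positivity
  obtain ⟨t, ht⟩ : ∃ t : ℝ, t = δ / (8 * (S4 * (q * (κ + 1)) + 1)) := ⟨_, rfl⟩
  have ht0 : 0 < t := by
    rw [ht]
    positivity
  obtain ⟨ε, hε⟩ : ∃ ε : ℝ, ε = δ / (8 * (S4 * (1 + 1 / t + t) * q + 1)) := ⟨_, rfl⟩
  have hε0 : 0 < ε := by
    rw [hε]
    positivity
  obtain ⟨ε2, hε2⟩ : ∃ ε2 : ℝ, ε2 = min 1 (min (ε1 / (I2 + 1)) (δ / (8 * (I2 + 1)))) := ⟨_, rfl⟩
  have hε20 : 0 < ε2 := by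
    rw [hε2]
    positivity
  have hε2a : ε2 ≤ 1 := by
    rw [hε2]
    exact min_le_left _ _
  have hε2b : ε2 * I2 ≤ ε1 := by
    have h1 : ε2 ≤ ε1 / (I2 + 1) := by
      rw [hε2]
      exact (min_le_right _ _).trans (min_le_left _ _)
    rw [le_div_iff₀ (by positivity)] at h1
    nlinarith
  have hε2c : ε2 * I2 ≤ δ / 8 := by
    have h1 : ε2 ≤ δ / (8 * (I2 + 1)) := by
      rw [hε2]
      exact (min_le_right _ _).trans (min_le_right _ _)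
    rw [le_div_iff₀ (by positivity)] at h1
    nlinarith
  -- the number of rows
  obtain ⟨K1, hK1⟩ := p6 _ _ _ _ _ _ hSp ε hε0
  have hCKall : ∀ K : ℕ, 0 < K → ∀ z, 0 ≤ CK (GFF.Vrow P) K z := CK_nonneg hP hR
  obtain ⟨K2, hK2⟩ := (Metric.tendsto_atTop.1 (p4 _ _ _ _ _ _ hSp hCKall)) ε2 hε20
  obtain ⟨K3, hK3⟩ := wKl_lim hP hSp p3 p4 p6 (TK_sum_nonneg hSp) hCKall ε2 hε20
  obtain ⟨K, hK⟩ : ∃ K : ℕ, K = max (max K1 K2) (max K3 1) := ⟨_, rfl⟩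
  have hKa : K1 ≤ K := by omega
  have hKb : K2 ≤ K := by omega
  have hKc : K3 ≤ K := by omega
  have hK0 : 0 < K := by omega
  have hK' : (0 : ℝ) < K := by exact_mod_cast hK0
  obtain ⟨l1, hl1⟩ := hK1 K hKa
  have hκK := hK2 K hKb
  rw [Real.dist_eq] at hκK
  obtain ⟨l3, hl3⟩ := hK3 K hKc
  have hCK := hCKall K hK0
  have hsum := p3 _ _ _ _ _ _ hSp K hK0 hCK
  obtain ⟨hσ0, hv0, hcov⟩ := hclose K hK0
  obtain ⟨SC, hSC⟩ : ∃ SC : ℝ, SC = ∑' z, CK (GFF.Vrow P) K z := ⟨_, rfl⟩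
  have hSC0 : 0 ≤ SC := by
    rw [hSC]
    exact tsum_nonneg hCK
  have hces := Asm.cesaro hsum hCK
  rw [← hSC] at hκK hv0 hcov hces
  obtain ⟨l2, hl2⟩ := (Metric.tendsto_atTop.1 hces) (δ / (64 * (q / K + 1))) (by positivity)
  obtain ⟨l, hl⟩ : ∃ l : ℕ, l = max (max l1 l2) (max l3 1) := ⟨_, rfl⟩
  have hla : l1 ≤ l := by omega
  have hlb : l2 ≤ l := by omega
  have hlc : l3 ≤ l := by omega
  have hl0 : 0 < l := by omega
  have hl' : (0 : ℝ) < l := by exact_mod_cast hl0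
  have hTK := hl1 l hla
  rw [one_div, inv_mul_le_iff₀ hl'] at hTK
  have havg := hl2 l hlb
  rw [Real.dist_eq] at havg
  have hw := hl3 l hlc
  have hw0 : 0 ≤ wKl P K l := integral_nonneg fun φ => sq_nonneg _
  have hE0 : 0 ≤ (l : ℝ) * (ε * K) := by positivity
  have hmain := hmeso K l hK0 hl0 t (l * (ε * K)) (δ / 8) ht0 hE0 (by positivity) hTK
  rw [← hSC] at hmain
  obtain ⟨w', hw'⟩ : ∃ w' : ℝ, w' = wKl P K l / (K * l) := ⟨_, rfl⟩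
  have hw'0 : 0 ≤ w' := by
    rw [hw']
    positivity
  rw [← hw'] at hmain hw
  have hκK' := abs_lt.1 hκK
  have hw'' := abs_le.1 hw
  have hκKb : SC / K ≤ κ + 1 := by linarith [hκK'.2]
  have hs1 : w' * I2 + 4 ≤ S4 := by
    rw [hS4]
    have : w' * I2 ≤ (κ + 1) * I2 := mul_le_mul_of_nonneg_right (by linarith [hw''.2]) hI20
    linarith
  -- the pieces
  have hroot : Real.sqrt (sig c κ f - 2 * cov c κ g f + SC / K * I2) ≤
      min 1 (δ / (8 * (2 + Real.sqrt (sig c κ f)))) := by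
    refine Real.sqrt_le_iff.2 ⟨hy0.le, ?_⟩
    have h1 : (SC / K - κ) * I2 ≤ ε2 * I2 := mul_le_mul_of_nonneg_right hκK'.2.le hI20
    have h2 : (min 1 (δ / (8 * (2 + Real.sqrt (sig c κ f))))) ^ 2 = ε1 + ε1 := by
      rw [hε1]
      ring
    rw [h2]
    linarith
  have hA1 := small_root (Real.sqrt_nonneg _) hroot
  have hA2 := sqrt_close hσ0 hv0 hcov
  have hA3 : |w' * I2 - SC / K * I2| ≤ δ / 8 + δ / 8 := by
    rw [← sub_mul, abs_mul, abs_of_nonneg hI20]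
    have h1 : |w' - SC / K| ≤ ε2 + ε2 := by
      rw [abs_le]
      constructor
      · linarith [hw''.1, hκK'.2]
      · linarith [hw''.2, hκK'.1]
    have h2 := mul_le_mul_of_nonneg_right h1 hI20
    linarith
  have hA4 : 8 * (q / K) * (SC - 1 / (l : ℝ) * ∑ x ∈ range l, ∑ y ∈ range l,
      CK (GFF.Vrow P) K ((x : ℤ) - y)) ≤ δ / 8 := by
    have h1 := (abs_lt.1 havg).1
    have h2 : SC - 1 / (l : ℝ) * ∑ x ∈ range l, ∑ y ∈ range l,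
        CK (GFF.Vrow P) K ((x : ℤ) - y) ≤ δ / (64 * (q / K + 1)) := by linarith
    have h3 : 0 ≤ q / K := by positivity
    have h4 := mul_le_mul_of_nonneg_left h2 (show 0 ≤ 8 * (q / K) by positivity)
    refine h4.trans ?_
    rw [← mul_div_assoc, div_le_div_iff₀ (by positivity) (by norm_num)]
    nlinarith
  have hA5 : (w' * I2 + 4) * (t * (q / K * SC)) ≤ δ / 8 := by
    have h1 : q / K * SC ≤ q * (κ + 1) := by
      have : q / K * SC = q * (SC / K) := by ring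
      rw [this]
      exact mul_le_mul_of_nonneg_left hκKb hq0
    have h2 : t * (q / K * SC) ≤ t * (q * (κ + 1)) := mul_le_mul_of_nonneg_left h1 ht0.le
    have h3 : (w' * I2 + 4) * (t * (q / K * SC)) ≤ S4 * (t * (q * (κ + 1))) :=
      mul_le_mul hs1 h2 (by positivity) hS40.le
    have h4 := mul_frac_le (A := S4 * (q * (κ + 1))) (by positivity) hδ.le ht
    have h5 : S4 * (t * (q * (κ + 1))) = S4 * (q * (κ + 1)) * t := by ring
    linarith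
  have hA6 : (w' * I2 + 4) * ((1 + 1 / t + t) * (q * (l * (ε * K) / (K * l)))) ≤ δ / 8 := by
    have h1 : l * (ε * K) / (K * l) = ε := by field_simp
    rw [h1]
    have h3 : (w' * I2 + 4) * ((1 + 1 / t + t) * (q * ε)) ≤ S4 * ((1 + 1 / t + t) * (q * ε)) :=
      mul_le_mul_of_nonneg_right hs1 (by positivity)
    have h4 := mul_frac_le (A := S4 * (1 + 1 / t + t) * q) (by positivity) hδ.le hε
    have h5 : S4 * ((1 + 1 / t + t) * (q * ε)) = S4 * (1 + 1 / t + t) * q * ε := by ring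
    linarith
  have hs0 : 0 ≤ w' * I2 := by positivity
  have hA7 := exp_close hs0 hσ0
  filter_upwards [hmain] with n hn
  rw [dist_eq_norm]
  rw [mul_add] at hn
  have tri : ‖∫ φ, ei (∑ᶠ p : ℤ × ℤ, a n p.1 p.2 * hev p φ) ∂P -
      ((Real.exp (-sig c κ f / 2) : ℝ) : ℂ)‖ ≤
      ‖∫ φ, ei (∑ᶠ p : ℤ × ℤ, a n p.1 p.2 * hev p φ) ∂P -
      ((Real.exp (-(w' * I2) / 2) : ℝ) : ℂ)‖ +
      |Real.exp (-(w' * I2) / 2) - Real.exp (-sig c κ f / 2)| := by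
    have h1 := norm_sub_le_norm_sub_add_norm_sub
      (∫ φ, ei (∑ᶠ p : ℤ × ℤ, a n p.1 p.2 * hev p φ) ∂P)
      ((Real.exp (-(w' * I2) / 2) : ℝ) : ℂ) ((Real.exp (-sig c κ f / 2) : ℝ) : ℂ)
    rwa [← Complex.ofReal_sub, Complex.norm_real, Real.norm_eq_abs] at h1
  exact tri.trans_lt (total_arith hn hA7 hA2 hA1 hA3 hA4 hA5 hA6 rfl hδ)

/-- **Row central limit theorem.** -/
theorem rowCLT {P : Measure (ℤ × ℤ → ℤ)} (hP : GFF.Plane P) (hR : RowLim P hev 2)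
    {m : ProbabilityTheory.Kernel ℝ ℝ} {κ C k0 : ℝ}
    (hSp : TwoPt.Spec (GFF.Vrow P) m (√3) κ C k0) : GFF.RowCLT P κ := by
  intro f L a M hf hf0 hD
  have h1 := row_ei hP hR hSp hf hf0 hD
  have e1 : ((Real.exp (-sig (√3) κ f / 2) : ℝ) : ℂ) =
      Complex.exp (-((sig (√3) κ f / 2 : ℝ) : ℂ)) := by
    rw [Complex.ofReal_exp]
    congr 1
    push_cast
    ring
  rw [e1] at h1
  exact h1

end Vale.Agent.P153.Asm
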