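import Vale.Agent.P153.Asm.Stmt
import Vale.Agent.P153.TwoPt.All

/-!
# The limit of the plane inequality
-/

namespace Vale.Agent.P153.Asm

open MeasureTheory Filter Finset
open scoped Topology
open Vale.Agent.P153.CLT Vale.Agent.P153.TwoPt

/-! ### sizes -/

/-- Half the number of steps (or blocks). -/
noncomputable def hn (S L : ℝ) (K : ℕ) : ℕ := ⌈S * L / K⌉₊ + 1

lemma hn_gt {S L : ℝ} {K : ℕ} (hK : 0 < K) : S * L < hn S L K * K := by
  have hK' : (0 : ℝ) < K := by exact_mod_cast hK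
  have h1 := Nat.le_ceil (S * L / K)
  have h2 : S * L / K < (hn S L K : ℝ) := by
    unfold hn
    push_cast
    linarith
  rwa [div_lt_iff₀ hK'] at h2

lemma hn_le {S L : ℝ} {K : ℕ} (hS : 0 ≤ S) (hL : 0 ≤ L) : (hn S L K : ℝ) ≤ S * L / K + 2 := by
  have h1 := Nat.ceil_lt_add_one (a := S * L / K) (by positivity)
  unfold hn
  push_cast
  linarith

lemma hn_card {S L : ℝ} {K : ℕ} (hK : 0 < K) (hS : 0 ≤ S) (hL : 1 ≤ L) :
    2 * (hn S L K : ℝ) ≤ (2 * S + 4) * L := by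
  have hK' : (1 : ℝ) ≤ K := by exact_mod_cast hK
  have h1 := hn_le (K := K) hS (zero_le_one.trans hL)
  have h2 : S * L / K ≤ S * L := div_le_self (by positivity) hK'
  nlinarith

lemma hn_mul {S L : ℝ} {K : ℕ} (hK : 0 < K) (hS : 0 ≤ S) (hL : (K : ℝ) ≤ L) :
    2 * (hn S L K : ℝ) * K ≤ (2 * S + 4) * L := by
  have hK' : (0 : ℝ) < K := by exact_mod_cast hK
  have h1 := hn_le (K := K) hS (hK'.le.trans hL)
  have h2 := mul_le_mul_of_nonneg_right h1 hK'.le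
  rw [add_mul, div_mul_cancel₀ _ hK'.ne'] at h2
  nlinarith

lemma row_out {S L : ℝ} {K : ℕ} (hK : 0 < K) (hL : 0 < L) {i : ℤ}
    (hi : i ∉ Finset.Ico (-(hn S L K : ℤ)) (hn S L K)) : S < |(i : ℝ) * K / L| := by
  have hK' : (0 : ℝ) < K := by exact_mod_cast hK
  have h1 := hn_gt (S := S) (L := L) hK
  rw [Finset.mem_Ico, not_and_or, not_le, not_lt] at hi
  rw [abs_div, abs_of_pos hL, lt_div_iff₀ hL, abs_mul, abs_of_pos hK']
  refine h1.trans_le (mul_le_mul_of_nonneg_right ?_ hK'.le)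
  rcases hi with h | h
  · have h2 : (i : ℝ) ≤ -(hn S L K : ℝ) := by exact_mod_cast h.le
    have h3 := neg_abs_le (i : ℝ)
    linarith
  · have h2 : (hn S L K : ℝ) ≤ i := by exact_mod_cast h
    exact h2.trans (le_abs_self _)

lemma pos_out {S L : ℝ} {l : ℕ} (hl : 0 < l) (hL : 0 < L) {x : ℤ}
    (hx : x / (l : ℤ) ∉ Finset.Ico (-(hn S L l : ℤ)) (hn S L l)) : S < |(x : ℝ) / L| := by
  have hl' : (0 : ℤ) < l := by exact_mod_cast hl
  have h1 := hn_gt (S := S) (L := L) hl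
  rw [Finset.mem_Ico, not_and_or, not_le, not_lt] at hx
  rw [abs_div, abs_of_pos hL, lt_div_iff₀ hL]
  refine h1.trans_le ?_
  rcases hx with h | h
  · have h2 : x < -(hn S L l : ℤ) * l := (Int.ediv_lt_iff_lt_mul hl').1 h
    have h3 : (x : ℝ) < -(hn S L l : ℝ) * l := by exact_mod_cast h2
    have h4 := neg_abs_le (x : ℝ)
    linarith
  · have h2 : (hn S L l : ℤ) * l ≤ x := (Int.le_ediv_iff_mul_le hl').1 h
    have h3 : (hn S L l : ℝ) * l ≤ x := by exact_mod_cast h2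
    exact h3.trans (le_abs_self _)

lemma g_zero {g : ℝ × ℝ → ℝ} {S : ℝ} (hS : ∀ u, g u ≠ 0 → |u.1| ≤ S ∧ |u.2| ≤ S) {u : ℝ × ℝ}
    (hu : S < |u.1| ∨ S < |u.2|) : g u = 0 := by
  by_contra h
  obtain ⟨h1, h2⟩ := hS u h
  rcases hu with hu | hu
  · linarith
  · linarith

/-- The box containing the support of the weights. -/
noncomputable def sbx (M L : ℝ) : Finset ℤ := Finset.Icc (-⌈M * L⌉) ⌈M * L⌉

lemma disc_zero {f : ℝ × ℝ → ℝ} {L : ℕ → ℝ} {a : ℕ → ℤ → ℤ → ℝ} {M : ℝ}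
    (hD : TwoPt.Disc f L a M) (n : ℕ) (j y : ℤ) (h : j ∉ sbx M (L n) ∨ y ∉ sbx M (L n)) :
    a n j y = 0 := by
  have key : ∀ x : ℤ, x ∉ sbx M (L n) → M * L n < |(x : ℝ)| := by
    intro x hx
    unfold sbx at hx
    rw [Finset.mem_Icc, ← abs_le, not_le] at hx
    have h1 := Int.le_ceil (M * L n)
    have h2 : ((⌈M * L n⌉ : ℤ) : ℝ) < ((|x| : ℤ) : ℝ) := by exact_mod_cast hx
    rw [Int.cast_abs] at h2
    linarith
  refine hD.supp n j y ?_
  rcases h with h | h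
  · exact Or.inl (key j h)
  · exact Or.inr (key y h)

/-! ### the plane data -/

section

variable {P : Measure (ℤ × ℤ → ℤ)}

lemma msd_hev (hP : GFF.Plane P) : msd P hev = tV (GFF.Vrow P) := by
  funext p q
  exact msd_eq hP p q

/-- Positivity of the covariances of the innovations. -/
theorem CK_nonneg (hP : GFF.Plane P) {B : ℝ} (hR : RowLim P hev B) (K : ℕ) (hK : 0 < K) (z : ℤ) :
    0 ≤ CK (GFF.Vrow P) K z := by
  have hK' : (0 : ℤ) < K := by exact_mod_cast hK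
  have h1 := crV_nonneg_plane hR (l := 0) (p := ((K : ℤ), z)) (q := ((K : ℤ), 0)) hK' hK'
  rw [msd_hev hP] at h1
  unfold crV tV rho at h1
  unfold CK
  simp only [sub_zero, sub_self] at h1
  have e : (K : ℤ) - (2 * 0 - K) = 2 * K := by ring
  rw [e] at h1
  exact h1

lemma err_nonneg (hP : GFF.Plane P) {B : ℝ} (hR : RowLim P hev B) {V : ℤ → ℤ → ℝ}
    (hV : V = GFF.Vrow P) {a : ℤ → ℤ → ℝ} {A1 A2 : Finset ℤ}
    (ha : ∀ j y, j ∉ A1 ∨ y ∉ A2 → a j y = 0) (ha0 : ∑ᶠ p : ℤ × ℤ, a p.1 p.2 = 0)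
    {g : ℝ × ℝ → ℝ} {S L : ℝ} (hL : 0 < L) (hS : ∀ u, g u ≠ 0 → |u.1| ≤ S ∧ |u.2| ≤ S)
    {K : ℕ} (hK : 0 < K) :
    0 ≤ varX V a - 2 * covXX V a K L g + varX' V K L g := by
  have hsum : ∑ w ∈ A1 ×ˢ A2, a w.1 w.2 = 0 := by
    rw [← pair_sum (fun p : ℤ × ℤ => a p.1 p.2) fun p hp => ha _ _ hp]
    exact ha0
  have h1 := err2_nonneg hR (bgeo K (-(hn S L K : ℤ)) (Finset.Ico (-(hn S L 1 : ℤ)) (hn S L 1)) 1)
    (A1 ×ˢ A2) (fun w => a w.1 w.2) hsum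
    (bwt g L K (-(hn S L K : ℤ)) (Finset.Ico (-(hn S L 1 : ℤ)) (hn S L 1)) 1) (2 * hn S L K)
  rw [msd_hev hP, ← hV, err2_eq ha one_pos] at h1
  · exact h1
  · intro i hi y
    refine g_zero hS (Or.inl (row_out hK hL ?_))
    have e : -(hn S L K : ℤ) + ((2 * hn S L K : ℕ) : ℤ) = hn S L K := by push_cast; ring
    rwa [e] at hi
  · intro x hx t
    exact g_zero hS (Or.inr (pos_out one_pos hL hx))

lemma varX_smul (V : ℤ → ℤ → ℝ) {a : ℤ → ℤ → ℝ} {A1 A2 : Finset ℤ}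
    (ha : ∀ j y, j ∉ A1 ∨ y ∉ A2 → a j y = 0) (x : ℝ) :
    varX V (fun j y => x * a j y) = x ^ 2 * varX V a := by
  rw [varX_eq ha, varX_eq (a := fun j y => x * a j y) (A1 := A1) (A2 := A2)
    (fun j y h => by rw [ha j y h, mul_zero])]
  rw [← mul_assoc, mul_comm (x ^ 2), mul_assoc, Finset.mul_sum (a := x ^ 2)]
  congr 1
  refine Finset.sum_congr rfl fun w _ => ?_
  rw [Finset.mul_sum]
  refine Finset.sum_congr rfl fun w' _ => ?_
  ring

lemma covXX_smul (V : ℤ → ℤ → ℝ) {a : ℤ → ℤ → ℝ} {A1 A2 : Finset ℤ}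
    (ha : ∀ j y, j ∉ A1 ∨ y ∉ A2 → a j y = 0)
    {g : ℝ × ℝ → ℝ} {S L : ℝ} (hL : 0 < L) (hS : ∀ u, g u ≠ 0 → |u.1| ≤ S ∧ |u.2| ≤ S)
    {K : ℕ} (hK : 0 < K) (x : ℝ) :
    covXX V (fun j y => x * a j y) K L g = x * covXX V a K L g := by
  have h1 : ∀ i : ℤ, i ∉ Finset.Ico (-(hn S L K : ℤ)) (-(hn S L K : ℤ) + (2 * hn S L K : ℕ)) →
      ∀ y : ℝ, g ((i : ℝ) * K / L, y) = 0 := by
    intro i hi y
    refine g_zero hS (Or.inl (row_out hK hL ?_))
    have e : -(hn S L K : ℤ) + ((2 * hn S L K : ℕ) : ℤ) = hn S L K := by push_cast; ring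
    rwa [e] at hi
  have h2 : ∀ x : ℤ, x / ((1 : ℕ) : ℤ) ∉ Finset.Ico (-(hn S L 1 : ℤ)) (hn S L 1) →
      ∀ t : ℝ, g (t, (x : ℝ) / L) = 0 := fun x hx t =>
    g_zero hS (Or.inr (pos_out one_pos hL hx))
  rw [covXX_eq ha one_pos h1 h2, covXX_eq (a := fun j y => x * a j y) (A1 := A1) (A2 := A2)
    (fun j y h => by rw [ha j y h, mul_zero]) one_pos h1 h2, Finset.mul_sum]
  refine Finset.sum_congr rfl fun j _ => ?_
  rw [Finset.mul_sum]
  refine Finset.sum_congr rfl fun i _ => ?_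
  rw [mul_left_comm, Finset.mul_sum (a := x)]
  congr 1
  refine Finset.sum_congr rfl fun w _ => ?_
  split_ifs
  · ring
  · ring

/-- The limiting variances are close. -/
theorem closeVar (hP : GFF.Plane P) {B : ℝ} (hR : RowLim P hev B)
    {m : ProbabilityTheory.Kernel ℝ ℝ} {c κ C k0 : ℝ}
    (hS : TwoPt.Spec (GFF.Vrow P) m c κ C k0) : CloseVar P c κ := by
  intro f L a M hD g hg hgc K hK
  obtain ⟨S, hS0, hSg⟩ := P3b.exists_radius hgc
  have hCK := CK_nonneg hP hR K hK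
  have hs := p3 _ _ _ _ _ _ hS K hK hCK
  have l1 := p1 _ _ _ _ _ _ hS f L a M hD
  have l2 := p2 _ _ _ _ _ _ hS f L a M hD g hg hgc K hK
  have l3 := p3b _ K hK hCK hs L hD.L_pos hD.L_top g hg hgc
  have key : ∀ n, 0 ≤ varX (GFF.Vrow P) (a n) ∧ 0 ≤ varX' (GFF.Vrow P) K (L n) g ∧
      covXX (GFF.Vrow P) (a n) K (L n) g ^ 2 ≤
        varX (GFF.Vrow P) (a n) * varX' (GFF.Vrow P) K (L n) g := by
    intro n
    have hL : 0 < L n := zero_lt_one.trans_le (hD.L_pos n)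
    refine quad_bound fun x => ?_
    have h1 := err_nonneg hP hR rfl (a := fun j y => x * a n j y) (A1 := sbx M (L n))
      (A2 := sbx M (L n)) (fun j y h => by rw [disc_zero hD n j y h, mul_zero])
      (by rw [← mul_finsum, hD.sum_zero, mul_zero]) hL hSg hK
    rw [varX_smul _ (disc_zero hD n), covXX_smul _ (disc_zero hD n) hL hSg hK] at h1
    exact h1
  exact ⟨ge_of_tendsto' l1 fun n => (key n).1, ge_of_tendsto' l3 fun n => (key n).2.1,
    le_of_tendsto_of_tendsto' (l2.pow 2) (l1.mul l3) fun n => (key n).2.2⟩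

end

end Vale.Agent.P153.Asm
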