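import Vale.Agent.P153.Asm.Limit
import Vale.Agent.P153.Asm.Cesaro

/-!
# The limit of the plane inequality: conclusion
-/

namespace Vale.Agent.P153.Asm

open MeasureTheory Filter Finset
open scoped Topology
open Vale.Agent.P153.CLT Vale.Agent.P153.TwoPt

lemma count {J C K l L Q Gm : ℝ} (hK : 0 < K) (hL : 0 < L) (hJ0 : 0 ≤ J * K) (hC0 : 0 ≤ C * l)
    (hJ : J * K ≤ Q * L) (hC : C * l ≤ Q * L) : J * C * (Gm / L) ^ 2 * l ≤ (Q * Gm) ^ 2 / K := by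
  rw [le_div_iff₀ hK]
  have h1 : J * C * (Gm / L) ^ 2 * l * K = (J * K) * (C * l) * (Gm / L) ^ 2 := by ring
  have h2 : (J * K) * (C * l) ≤ (Q * L) * (Q * L) :=
    mul_le_mul hJ hC hC0 (hJ0.trans hJ)
  rw [h1]
  refine (mul_le_mul_of_nonneg_right h2 (sq_nonneg _)).trans (le_of_eq ?_)
  have h0 := hL.ne'
  field_simp

lemma sqrt_count {J C L Q w : ℝ} (hL : 0 < L) (hQ : 0 ≤ Q)
    (hJ : J ≤ Q * L) (hC : C ≤ Q * L) :
    Real.sqrt J * (C * (w / L) ^ 2) ≤ Q * Real.sqrt Q * w ^ 2 / Real.sqrt L := by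
  have hs : 0 < Real.sqrt L := Real.sqrt_pos.2 hL
  have h1 : Real.sqrt J ≤ Real.sqrt Q * Real.sqrt L := by
    rw [← Real.sqrt_mul hQ]
    exact Real.sqrt_le_sqrt hJ
  have h2 : C * (w / L) ^ 2 ≤ Q * L * (w / L) ^ 2 := mul_le_mul_of_nonneg_right hC (sq_nonneg _)
  have h3 : 0 ≤ Q * L * (w / L) ^ 2 := by positivity
  calc Real.sqrt J * (C * (w / L) ^ 2) ≤ Real.sqrt J * (Q * L * (w / L) ^ 2) :=
        mul_le_mul_of_nonneg_left h2 (Real.sqrt_nonneg _)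
    _ ≤ (Real.sqrt Q * Real.sqrt L) * (Q * L * (w / L) ^ 2) := mul_le_mul_of_nonneg_right h1 h3
    _ = Q * Real.sqrt Q * w ^ 2 / Real.sqrt L := by
        have e : Real.sqrt L * Real.sqrt L = L := Real.mul_self_sqrt hL.le
        have h0 := hL.ne'
        rw [eq_div_iff hs.ne']
        field_simp
        have e2 : Real.sqrt L ^ 2 = L := by rw [sq]; exact e
        rw [e2]
        ring

section bounds

variable {V : ℤ → ℤ → ℝ} {K : ℕ} {g : ℝ × ℝ → ℝ} {Gm L Q : ℝ} {C : Finset ℤ} {l J : ℕ} {I0 : ℤ}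

lemma vcross_bd (hK : 0 < K) (hl : 0 < l) (hf : ∀ z, 0 ≤ CK V K z) (hs : Summable (CK V K))
    (hL : 0 < L) (hg : ∀ z, |g z| ≤ Gm) (hJ : (J : ℝ) * K ≤ Q * L) (hC : (C.card : ℝ) * l ≤ Q * L) :
    vcross (tV V) (bgeo K I0 C l) (bwt g L K I0 C l) J ≤ (Q * Gm) ^ 2 / K *
      (∑' z, CK V K z - 1 / (l : ℝ) * ∑ x ∈ range l, ∑ y ∈ range l, CK V K ((x : ℤ) - y)) := by
  have hK' : (0 : ℝ) < K := by exact_mod_cast hK
  have hl' : (0 : ℝ) < l := by exact_mod_cast hl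
  have cnt := count (Gm := Gm) hK' hL (by positivity : 0 ≤ (J : ℝ) * K)
    (by positivity : 0 ≤ (C.card : ℝ) * l) hJ hC
  refine (vcross_le hf hs hL hg I0 C l J).trans ?_
  have h0 := Asm.cesaro_le hs hf l
  have h1 : (J : ℝ) * C.card * (Gm / L) ^ 2 * (l * (∑' z, CK V K z) -
      ∑ x ∈ range l, ∑ y ∈ range l, CK V K ((x : ℤ) - y)) =
      (J * C.card * (Gm / L) ^ 2 * l) * ((∑' z, CK V K z) -
        1 / (l : ℝ) * ∑ x ∈ range l, ∑ y ∈ range l, CK V K ((x : ℤ) - y)) := by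
    field_simp
  rw [h1]
  refine mul_le_mul_of_nonneg_right cnt ?_
  rw [sub_nonneg, one_div, inv_mul_le_iff₀ hl']
  exact h0

lemma vsq_bd (hK : 0 < K) (hf : ∀ z, 0 ≤ CK V K z) (hs : Summable (CK V K))
    (hL : 0 < L) (hg : ∀ z, |g z| ≤ Gm) (hJ : (J : ℝ) * K ≤ Q * L) (hC : (C.card : ℝ) * l ≤ Q * L) :
    vsq (tV V) (bgeo K I0 C l) (bwt g L K I0 C l) J ≤ (Q * Gm) ^ 2 / K * ∑' z, CK V K z := by
  have hK' : (0 : ℝ) < K := by exact_mod_cast hK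
  have cnt := count (Gm := Gm) hK' hL (by positivity : 0 ≤ (J : ℝ) * K)
    (by positivity : 0 ≤ (C.card : ℝ) * l) hJ hC
  refine (vsq_le hf hs hL hg I0 C l J).trans ?_
  rw [← mul_assoc]
  exact mul_le_mul_of_nonneg_right cnt (tsum_nonneg hf)

lemma vdel_bd (hK : 0 < K) (hl : 0 < l) (hL : 0 < L) (hg : ∀ z, |g z| ≤ Gm)
    (hJ : (J : ℝ) * K ≤ Q * L) (hC : (C.card : ℝ) * l ≤ Q * L) {om Ti E : ℝ} (hE : 0 ≤ E)
    (hom0 : 0 ≤ om) (hTi0 : 0 ≤ Ti)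
    (hom : ∀ u v v' : ℝ, |v - v'| ≤ l / L → |g (u, v) - g (u, v')| ≤ om)
    (hTi : ∀ z : ℤ, |z| < l → |TK V K z| ≤ Ti)
    (hTE : ∑ x ∈ range l, ∑ y ∈ range l, TK V K ((x : ℤ) - y) ≤ E) :
    vdel (tV V) (bgeo K I0 C l) (bwt g L K I0 C l) J ≤
      (Q * Gm) ^ 2 * (E / (K * l)) + om * (Q ^ 2 / K * (2 * Gm * l * Ti)) := by
  have hK' : (0 : ℝ) < K := by exact_mod_cast hK
  have hl' : (0 : ℝ) < l := by exact_mod_cast hl
  have hGm0 : 0 ≤ Gm := (abs_nonneg _).trans (hg 0)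
  have cnt := count (Gm := Gm) hK' hL (by positivity : 0 ≤ (J : ℝ) * K)
    (by positivity : 0 ≤ (C.card : ℝ) * l) hJ hC
  have cnt1 := count (Gm := 1) hK' hL (by positivity : 0 ≤ (J : ℝ) * K)
    (by positivity : 0 ≤ (C.card : ℝ) * l) hJ hC
  refine (vdel_le (om := om) (Ti := Ti) (E := E) hL hg I0 C l J hE ?_ hTi hTE).trans ?_
  · intro j _ i
    unfold bwt
    rw [← mul_sub, abs_mul, abs_of_pos (inv_pos.2 hL), div_eq_inv_mul om L]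
    refine mul_le_mul_of_nonneg_left (hom _ _ _ ?_) (inv_pos.2 hL).le
    rw [← sub_div, abs_div, abs_of_pos hL]
    refine div_le_div_of_nonneg_right ?_ hL.le
    push_cast
    rw [add_sub_cancel_left, abs_of_nonneg (Nat.cast_nonneg _)]
    exact_mod_cast i.2.2.le
  · have h1 : (J : ℝ) * C.card * ((Gm / L) ^ 2 * E + 2 * (Gm / L) * (om / L) * l ^ 2 * Ti) =
        (J * C.card * (Gm / L) ^ 2 * l) * (E / l) +
        (J * C.card * (1 / L) ^ 2 * l) * (2 * Gm * om * l * Ti) := by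
      field_simp
    rw [h1]
    have h2 : (J * C.card * (Gm / L) ^ 2 * l) * (E / l) ≤ (Q * Gm) ^ 2 / K * (E / l) :=
      mul_le_mul_of_nonneg_right cnt (by positivity)
    have h3 : (J * C.card * (1 / L) ^ 2 * l) * (2 * Gm * om * l * Ti) ≤
        (Q * 1) ^ 2 / K * (2 * Gm * om * l * Ti) :=
      mul_le_mul_of_nonneg_right cnt1 (by positivity)
    refine (add_le_add h2 h3).trans (le_of_eq ?_)
    field_simp

lemma eta_bd (hL : 0 < L) (hg : ∀ z, |g z| ≤ Gm) (j : ℕ) (cc : ↥C) :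
    ∑ i ∈ sT (bgeo K I0 C l).b {cc}, |bwt g L K I0 C l j i| * (2 * (2 * (K : ℝ))) ≤
      (l * Gm * (2 * (2 * K))) / L := by
  rw [sum_sT]
  have h1 : ∀ r ∈ (Finset.univ : Finset (Fin l)), |bwt g L K I0 C l j (cc, r)| * (2 * (2 * (K : ℝ))) ≤
      Gm / L * (2 * (2 * K)) := fun r _ =>
    mul_le_mul_of_nonneg_right (abs_bwt hL hg I0 C l j (cc, r)) (by positivity)
  refine (Finset.sum_le_sum h1).trans (le_of_eq ?_)
  rw [Finset.sum_const, Finset.card_univ, Fintype.card_fin, nsmul_eq_mul]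
  ring

end bounds

lemma card_sym (N : ℕ) : (((Finset.Ico (-(N : ℤ)) N).card : ℕ) : ℝ) = 2 * (N : ℝ) := by
  rw [Int.card_Ico]
  have : ((N : ℤ) - -(N : ℤ)).toNat = 2 * N := by omega
  rw [this]
  push_cast
  ring

lemma sym_add (N : ℕ) : -(N : ℤ) + ((2 * N : ℕ) : ℤ) = N := by
  push_cast
  ring

/-- Deviation of the local squares for the concrete boxes. -/
noncomputable def dvn (P : Measure (ℤ × ℤ → ℤ)) (g : ℝ × ℝ → ℝ) (S L : ℝ) (K l : ℕ) (s : ℝ) : ℝ :=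
  dev P hev (bgeo K (-(hn S L K : ℤ)) (Finset.Ico (-(hn S L l : ℤ)) (hn S L l)) l)
    (bwt g L K (-(hn S L K : ℤ)) (Finset.Ico (-(hn S L l : ℤ)) (hn S L l)) l)
    (2 * hn S L K) s

lemma final_arith {y e x d0 v0 v1 v2 r s t q' SC cr E' X r' Z η η' : ℝ} (hs : 0 ≤ s) (ht : 0 < t)
    (main : y ≤ e + 2 * (4 * x + η * v0) + (s + 4) * (d0 + t * v1 + (1 + 1 / t) * v2 + r))
    (h1 : v1 = v0 + v2) (hη : 0 ≤ η) (b1 : x ≤ q' * cr) (b2 : v0 ≤ q' * SC) (b3 : v2 ≤ E' + X)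
    (b4 : r ≤ r') (hZ : Z = (s + 4) * (1 + 1 / t + t)) (hη' : η' = η * (q' * SC)) :
    y ≤ e + 8 * q' * cr + 2 * η' + (s + 4) * d0 + (s + 4) * (t * (q' * SC)) + Z * (E' + X) +
      (s + 4) * r' := by
  have hs4 : 0 ≤ s + 4 := by linarith
  have hZ0 : 0 ≤ Z := by rw [hZ]; positivity
  have c1 := mul_le_mul_of_nonneg_left b2 hη
  have c2 := mul_le_mul_of_nonneg_left (mul_le_mul_of_nonneg_left b2 ht.le) hs4
  have c3 := mul_le_mul_of_nonneg_left b3 hZ0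
  have c4 := mul_le_mul_of_nonneg_left b4 hs4
  have e1 : (s + 4) * (d0 + t * v1 + (1 + 1 / t) * v2 + r) =
      (s + 4) * d0 + (s + 4) * (t * v0) + Z * v2 + (s + 4) * r := by
    rw [h1, hZ]
    ring
  rw [e1] at main
  rw [hη']
  linarith

section

variable {P : Measure (ℤ × ℤ → ℤ)}

/-- The plane inequality at one scale. -/
lemma one_scale (hP : GFF.Plane P) (hR : RowLim P hev 2) {a : ℤ → ℤ → ℝ} {A1 A2 : Finset ℤ}
    (ha : ∀ j y, j ∉ A1 ∨ y ∉ A2 → a j y = 0) (ha0 : ∑ᶠ p : ℤ × ℤ, a p.1 p.2 = 0)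
    {g : ℝ × ℝ → ℝ} {S Gm L : ℝ} (hL : 1 ≤ L) (hS0 : 0 ≤ S)
    (hSg : ∀ u, g u ≠ 0 → |u.1| ≤ S ∧ |u.2| ≤ S) (hGm : ∀ z, |g z| ≤ Gm)
    {K l : ℕ} (hK : 0 < K) (hl : 0 < l) (hLK : (K : ℝ) ≤ L) (hLl : (l : ℝ) ≤ L)
    (hsum : Summable (CK (GFF.Vrow P) K))
    (hη1 : (l * Gm * (2 * (2 * K))) / L ≤ 1) {om Ti E : ℝ} (hE : 0 ≤ E)
    (hom0 : 0 ≤ om) (hTi0 : 0 ≤ Ti)
    (hom : ∀ u v v' : ℝ, |v - v'| ≤ l / L → |g (u, v) - g (u, v')| ≤ om)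
    (hTi : ∀ z : ℤ, |z| < l → |TK (GFF.Vrow P) K z| ≤ Ti)
    (hTE : ∑ x ∈ range l, ∑ y ∈ range l, TK (GFF.Vrow P) K ((x : ℤ) - y) ≤ E)
    {s t : ℝ} (hs0 : 0 ≤ s) (ht : 0 < t) :
    ‖∫ φ, ei (∑ᶠ p : ℤ × ℤ, a p.1 p.2 * hev p φ) ∂P - ((Real.exp (-s / 2) : ℝ) : ℂ)‖ ≤
      Real.sqrt (varX (GFF.Vrow P) a - 2 * covXX (GFF.Vrow P) a K L g +
        varX' (GFF.Vrow P) K L g) +
      8 * (((2 * S + 4) * Gm) ^ 2 / K) * (∑' z, CK (GFF.Vrow P) K z -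
        1 / (l : ℝ) * ∑ x ∈ range l, ∑ y ∈ range l, CK (GFF.Vrow P) K ((x : ℤ) - y)) +
      2 * ((l * Gm * (2 * (2 * K))) / L *
        (((2 * S + 4) * Gm) ^ 2 / K * ∑' z, CK (GFF.Vrow P) K z)) +
      (s + 4) * dvn P g S L K l s +
      (s + 4) * (t * (((2 * S + 4) * Gm) ^ 2 / K * ∑' z, CK (GFF.Vrow P) K z)) +
      ((s + 4) * (1 + 1 / t + t)) * (((2 * S + 4) * Gm) ^ 2 * (E / (K * l)) +
        om * ((2 * S + 4) ^ 2 / K * (2 * Gm * l * Ti))) +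
      (s + 4) * ((2 * S + 4) * Real.sqrt (2 * S + 4) * (l * Gm * (2 * (2 * K))) ^ 2 /
        Real.sqrt L) := by
  have hprob := hP.prob
  have hL0 : 0 < L := zero_lt_one.trans_le hL
  have hCK := CK_nonneg hP hR K hK
  have haA : ∑ w ∈ A1 ×ˢ A2, a w.1 w.2 = 0 := by
    rw [← pair_sum (fun p : ℤ × ℤ => a p.1 p.2) fun p hp => ha _ _ hp]
    exact ha0
  have main := plane (P := P) (h := hev) (B := 2) (by norm_num) measurable_hev hR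
    (bgeo K (-(hn S L K : ℤ)) (Finset.Ico (-(hn S L l : ℤ)) (hn S L l)) l) hK
    (A1 ×ˢ A2) (fun w => a w.1 w.2) haA
    (bwt g L K (-(hn S L K : ℤ)) (Finset.Ico (-(hn S L l : ℤ)) (hn S L l)) l)
    (2 * hn S L K) hη1 (fun j cc => eta_bd hL0 hGm j cc) s hs0 t ht
  have hg1 : ∀ i : ℤ, i ∉ Finset.Ico (-(hn S L K : ℤ)) (-(hn S L K : ℤ) + (2 * hn S L K : ℕ)) →
      ∀ y : ℝ, g ((i : ℝ) * K / L, y) = 0 := by
    intro i hi y
    rw [sym_add] at hi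
    exact g_zero hSg (Or.inl (row_out hK hL0 hi))
  have hg2 : ∀ x : ℤ, x / (l : ℤ) ∉ Finset.Ico (-(hn S L l : ℤ)) (hn S L l) →
      ∀ t : ℝ, g (t, (x : ℝ) / L) = 0 := fun x hx t =>
    g_zero hSg (Or.inr (pos_out hl hL0 hx))
  have hVK : ∀ z, GFF.Vrow P (-(K : ℤ)) z = GFF.Vrow P K z := fun z => Vrow_neg_left hP K z
  have hJK : ((2 * hn S L K : ℕ) : ℝ) * K ≤ (2 * S + 4) * L := by
    push_cast
    exact hn_mul hK hS0 hLK
  have hCl : (((Finset.Ico (-(hn S L l : ℤ)) (hn S L l)).card : ℕ) : ℝ) * l ≤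
      (2 * S + 4) * L := by
    rw [card_sym]
    exact hn_mul hl hS0 hLl
  have b4 : Real.sqrt ((2 * hn S L K : ℕ) : ℝ) *
      (((Finset.Ico (-(hn S L l : ℤ)) (hn S L l)).card : ℕ) * ((l * Gm * (2 * (2 * K))) / L) ^ 2) ≤
      (2 * S + 4) * Real.sqrt (2 * S + 4) * (l * Gm * (2 * (2 * K))) ^ 2 / Real.sqrt L := by
    refine sqrt_count hL0 (by positivity) ?_ ?_
    · push_cast
      exact hn_card hK hS0 hL
    · rw [card_sym]
      exact hn_card hl hS0 hL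
  have eX : ∀ φ, ∑ᶠ p : ℤ × ℤ, a p.1 p.2 * hev p φ = ∑ w ∈ A1 ×ˢ A2, a w.1 w.2 * hev w φ := by
    intro φ
    exact pair_sum (fun p : ℤ × ℤ => a p.1 p.2 * hev p φ) fun p hp => by rw [ha _ _ hp, zero_mul]
  simp only [eX]
  rw [msd_hev hP, err2_eq ha hl hg1 hg2, Fintype.card_coe] at main
  exact final_arith hs0 ht main (vloc_eq hVK _ _ _ _ _)
    (div_nonneg (by have := (abs_nonneg _).trans (hGm 0); positivity) hL0.le)
    (vcross_bd hK hl hCK hsum hL0 hGm hJK hCl) (vsq_bd hK hCK hsum hL0 hGm hJK hCl)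
    (vdel_bd hK hl hL0 hGm hJK hCl hE hom0 hTi0 hom hTi hTE) b4 rfl rfl

end

end Vale.Agent.P153.Asm
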