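import Vale.Agent.P153.Asm.Meso

/-!
# The limit of the plane inequality: all scales
-/

namespace Vale.Agent.P153.Asm

open MeasureTheory Filter Finset
open scoped Topology
open Vale.Agent.P153.CLT Vale.Agent.P153.TwoPt

variable {P : Measure (ℤ × ℤ → ℤ)}

lemma dvn_tendsto (hP : GFF.Plane P) (l K : ℕ) (hl : 0 < l) (hK : 0 < K)
    (g : ℝ × ℝ → ℝ) (hg : Continuous g) (hgc : HasCompactSupport g) {S : ℝ} (hS0 : 0 ≤ S)
    (hSg : ∀ u, g u ≠ 0 → |u.1| ≤ S ∧ |u.2| ≤ S) (L : ℕ → ℝ) (hL1 : ∀ n, 1 ≤ L n)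
    (hL : Tendsto L atTop atTop) :
    Tendsto (fun n => dvn P g S (L n) K l (wKl P K l / (K * l) * ∫ z, g z ^ 2)) atTop (𝓝 0) := by
  have hL0 : ∀ n, 0 < L n := fun n => zero_lt_one.trans_le (hL1 n)
  have h1 := devLim hP l K hl hK g hg hgc L hL0 hL
    (fun n => Finset.Ico (-(hn S (L n) K : ℤ)) (hn S (L n) K))
    (fun n => Finset.Ico (-(hn S (L n) l : ℤ)) (hn S (L n) l)) (M := 2 * S + 4)
    (fun n => by rw [card_sym]; exact hn_card hK hS0 (hL1 n))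
    (fun n => by rw [card_sym]; exact hn_card hl hS0 (hL1 n))
    (fun n i hi y => g_zero hSg (Or.inl (row_out hK (hL0 n) hi)))
    (fun n i hi y => g_zero hSg (Or.inr (row_out hl (hL0 n) hi)))
    (fun n i x => (L n)⁻¹ * g ((i : ℝ) * K / L n, (x : ℝ) / L n)) (fun _ => 0)
    tendsto_const_nhds (fun n i x => by simp)
  refine h1.congr fun n => ?_
  unfold dvn
  rw [dev_eq, sym_add]
  rfl

lemma final_arith2 {y e e' c8 η' d0 s v Z E' X r' ρ : ℝ} (hs : 0 ≤ s)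
    (main : y ≤ e' + c8 + 2 * η' + (s + 4) * d0 + (s + 4) * v + Z * (E' + X) + (s + 4) * r')
    (h1 : e' ≤ e + ρ / 5) (h2 : 2 * η' ≤ ρ / 5) (h3 : d0 ≤ ρ / (5 * (s + 4)))
    (h4 : r' ≤ ρ / (5 * (s + 4))) (h5 : Z * X ≤ ρ / 5) :
    y ≤ e + c8 + ((s + 4) * v + Z * E') + ρ := by
  have hs4 : 0 < s + 4 := by linarith
  have c3 := mul_le_mul_of_nonneg_left h3 hs4.le
  have c4 := mul_le_mul_of_nonneg_left h4 hs4.le
  have h6 : (s + 4) * (ρ / (5 * (s + 4))) = ρ / 5 := by field_simp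
  rw [h6] at c3 c4
  linarith

/-- **The limit of the plane inequality.** -/
theorem meso (hP : GFF.Plane P) (hR : RowLim P hev 2)
    {m : ProbabilityTheory.Kernel ℝ ℝ} {c κ C k0 : ℝ}
    (hSp : TwoPt.Spec (GFF.Vrow P) m c κ C k0) : Meso P c κ := by
  intro f L a M hD g hg hgc
  obtain ⟨S, hS0, hSg⟩ := P3b.exists_radius hgc
  obtain ⟨Gm, hGm'⟩ := hgc.exists_bound_of_continuous hg
  have hGm : ∀ z, |g z| ≤ Gm := fun z => by
    have := hGm' z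
    rwa [Real.norm_eq_abs] at this
  have hGm0 : 0 ≤ Gm := (abs_nonneg _).trans (hGm 0)
  refine ⟨((2 * S + 4) * Gm) ^ 2, by positivity, ?_⟩
  intro K l hK hl t E ρ ht hE hρ hTE
  have hK' : (0 : ℝ) < K := by exact_mod_cast hK
  have hl' : (0 : ℝ) < l := by exact_mod_cast hl
  have hCK := CK_nonneg hP hR K hK
  have hsum := p3 _ _ _ _ _ _ hSp K hK hCK
  have hSC0 : 0 ≤ ∑' z, CK (GFF.Vrow P) K z := tsum_nonneg hCK
  have hI20 : 0 ≤ ∫ z, g z ^ 2 := integral_nonneg fun z => sq_nonneg _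
  have hw0 : 0 ≤ wKl P K l := integral_nonneg fun φ => sq_nonneg _
  have hs0 : 0 ≤ wKl P K l / (K * l) * ∫ z, g z ^ 2 := by positivity
  obtain ⟨s, hs⟩ : ∃ s, s = wKl P K l / (K * l) * ∫ z, g z ^ 2 := ⟨_, rfl⟩
  have hdv := dvn_tendsto hP l K hl hK g hg hgc hS0 hSg L hD.L_pos hD.L_top
  rw [← hs] at hs0 hdv ⊢
  -- the modulus of continuity
  obtain ⟨Ti, hTi⟩ : ∃ Ti : ℝ, Ti = ∑ z ∈ Finset.Icc (-(l : ℤ)) l, |TK (GFF.Vrow P) K z| := ⟨_, rfl⟩
  have hTi0 : 0 ≤ Ti := by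
    rw [hTi]
    exact Finset.sum_nonneg fun _ _ => abs_nonneg _
  obtain ⟨X0, hX0⟩ : ∃ X0 : ℝ, X0 = (2 * S + 4) ^ 2 / K * (2 * Gm * l * Ti) := ⟨_, rfl⟩
  have hX00 : 0 ≤ X0 := by
    rw [hX0]
    positivity
  obtain ⟨Z, hZ⟩ : ∃ Z : ℝ, Z = (s + 4) * (1 + 1 / t + t) := ⟨_, rfl⟩
  have hZ0 : 0 < Z := by
    rw [hZ]
    positivity
  obtain ⟨om, hom⟩ : ∃ om : ℝ, om = ρ / (5 * Z * (X0 + 1)) := ⟨_, rfl⟩
  have hom0 : 0 < om := by
    rw [hom]
    positivity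
  have homX : Z * (om * X0) ≤ ρ / 5 := by
    have h1 : Z * (om * (X0 + 1)) = ρ / 5 := by
      rw [hom]
      field_simp
    have h2 : om * X0 ≤ om * (X0 + 1) := mul_le_mul_of_nonneg_left (by linarith) hom0.le
    linarith [mul_le_mul_of_nonneg_left h2 hZ0.le]
  obtain ⟨d, hd, hdg⟩ := Metric.uniformContinuous_iff.1
    (hgc.uniformContinuous_of_continuous hg) om hom0
  have lim1 : Tendsto (fun n => Real.sqrt (varX (GFF.Vrow P) (a n) -
      2 * covXX (GFF.Vrow P) (a n) K (L n) g + varX' (GFF.Vrow P) K (L n) g)) atTop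
      (𝓝 (Real.sqrt (sig c κ f - 2 * cov c κ g f +
        (∑' z, CK (GFF.Vrow P) K z) / K * ∫ z, g z ^ 2))) :=
    (((p1 _ _ _ _ _ _ hSp f L a M hD).sub
      ((p2 _ _ _ _ _ _ hSp f L a M hD g hg hgc K hK).const_mul 2)).add
      (p3b _ K hK hCK hsum L hD.L_pos hD.L_top g hg hgc)).sqrt
  have lim2 : Tendsto (fun n => (l * Gm * (2 * (2 * K))) / L n) atTop (𝓝 0) :=
    tendsto_const_nhds.div_atTop hD.L_top
  have lim2' : Tendsto (fun n => 2 * ((l * Gm * (2 * (2 * K))) / L n *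
      (((2 * S + 4) * Gm) ^ 2 / K * ∑' z, CK (GFF.Vrow P) K z))) atTop (𝓝 0) := by
    have := (lim2.mul_const (((2 * S + 4) * Gm) ^ 2 / K * ∑' z, CK (GFF.Vrow P) K z)).const_mul 2
    simpa using this
  have lim4 : Tendsto (fun n => (2 * S + 4) * Real.sqrt (2 * S + 4) *
      (l * Gm * (2 * (2 * K))) ^ 2 / Real.sqrt (L n)) atTop (𝓝 0) :=
    tendsto_const_nhds.div_atTop (Real.tendsto_sqrt_atTop.comp hD.L_top)
  have lim5 : Tendsto (fun n => (l : ℝ) / L n) atTop (𝓝 0) :=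
    tendsto_const_nhds.div_atTop hD.L_top
  have hρ5 : 0 < ρ / 5 := by positivity
  have hρs : 0 < ρ / (5 * (s + 4)) := by positivity
  filter_upwards [lim1.eventually (gt_mem_nhds (lt_add_of_pos_right _ hρ5)),
    lim2.eventually (gt_mem_nhds one_pos), lim2'.eventually (gt_mem_nhds hρ5),
    hdv.eventually (gt_mem_nhds hρs), lim4.eventually (gt_mem_nhds hρs),
    lim5.eventually (gt_mem_nhds hd), hD.L_top.eventually_ge_atTop (K : ℝ),
    hD.L_top.eventually_ge_atTop (l : ℝ)] with n e1 e2 e2' e3 e4 e5 e6 e7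
  have hom' : ∀ u v v' : ℝ, |v - v'| ≤ l / L n → |g (u, v) - g (u, v')| ≤ om := by
    intro u v v' h
    rw [← Real.dist_eq]
    refine (hdg ?_).le
    rw [Prod.dist_eq, dist_self, Real.dist_eq]
    exact max_lt hd (h.trans_lt e5)
  have hTi' : ∀ z : ℤ, |z| < l → |TK (GFF.Vrow P) K z| ≤ Ti := by
    intro z hz
    rw [hTi]
    refine Finset.single_le_sum (f := fun z => |TK (GFF.Vrow P) K z|)
      (fun _ _ => abs_nonneg _) ?_
    rw [abs_lt] at hz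
    exact Finset.mem_Icc.2 ⟨hz.1.le, hz.2.le⟩
  have main := one_scale hP hR (disc_zero hD n) (hD.sum_zero n) (hD.L_pos n) hS0 hSg hGm hK hl
    e6 e7 hsum e2.le hE hom0.le hTi0 hom' hTi' hTE hs0 ht
  rw [← hZ, ← hX0] at main
  have fin := final_arith2 hs0 main e1.le e2'.le e3.le e4.le homX
  refine fin.trans (le_of_eq ?_)
  rw [hZ]
  ring

end Vale.Agent.P153.Asm
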