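import Vale.Agent.P153.CLT.Sq

/-!
# Orthogonality of martingale differences
-/

namespace Vale.Agent.P153.Asm

open MeasureTheory Filter Finset
open scoped Topology ENNReal
open Vale.Agent.P153.CLT

variable {Ω : Type*} {mΩ : MeasurableSpace Ω} {μ : Measure Ω}

/-- Sum of squares of martingale differences. -/
lemma mart_orth [IsProbabilityMeasure μ] (F : ℕ → MeasurableSpace Ω) (hF : ∀ j, F j ≤ mΩ)
    (hmono : Monotone F) (D : ℕ → Ω → ℝ) (hDm : ∀ j, AEStronglyMeasurable[F (j + 1)] (D j) μ)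
    (hD2 : ∀ j, MemLp (D j) 2 μ) (hD0 : ∀ j, μ[D j | F j] =ᵐ[μ] 0) (J : ℕ) :
    MemLp (fun ω => ∑ j ∈ range J, D j ω) 2 μ ∧
    AEStronglyMeasurable[F J] (fun ω => ∑ j ∈ range J, D j ω) μ ∧
    ∫ ω, (∑ j ∈ range J, D j ω) ^ 2 ∂μ = ∑ j ∈ range J, ∫ ω, D j ω ^ 2 ∂μ := by
  induction J with
  | zero => exact ⟨by simp, by simpa using aestronglyMeasurable_const, by simp⟩
  | succ J ih =>
    obtain ⟨ih1, ih2, ih3⟩ := ih
    simp only [Finset.sum_range_succ]
    refine ⟨ih1.add (hD2 J), (ih2.mono (hmono (Nat.le_succ J))).add (hDm J), ?_⟩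
    have i1 : Integrable (fun ω => (∑ j ∈ range J, D j ω) * D J ω) μ :=
      ih1.integrable_mul (hD2 J)
    have e1 : ∫ ω, (∑ j ∈ range J, D j ω) * D J ω ∂μ = 0 := by
      have h1 := condExp_mul_of_aestronglyMeasurable_left (μ := μ) ih2 i1
        ((hD2 J).integrable (by norm_num))
      rw [← integral_condExp (hF J) (f := fun ω => (∑ j ∈ range J, D j ω) * D J ω)]
      have h2 : μ[fun ω => (∑ j ∈ range J, D j ω) * D J ω | F J] =ᵐ[μ] 0 := by
        filter_upwards [h1, hD0 J] with ω a b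
        have a' : (μ[fun ω => (∑ j ∈ range J, D j ω) * D J ω | F J]) ω =
          (∑ j ∈ range J, D j ω) * (μ[D J | F J]) ω := a
        rw [a', b]
        simp
      rw [integral_congr_ae h2]
      simp
    have e2 : (fun ω => (∑ j ∈ range J, D j ω + D J ω) ^ 2) = fun ω =>
        (∑ j ∈ range J, D j ω) ^ 2 + 2 * ((∑ j ∈ range J, D j ω) * D J ω) + D J ω ^ 2 := by
      funext ω
      ring
    rw [e2, int3 ih1.integrable_sq i1 (hD2 J).integrable_sq, e1, ih3]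
    ring

/-- Conditional expectations of an `L²` function for two nested sigma-algebras. -/
lemma integral_sq_condExp_sub [IsProbabilityMeasure μ] {m1 m2 : MeasurableSpace Ω} (h12 : m1 ≤ m2)
    (h2 : m2 ≤ mΩ) {X : Ω → ℝ} (hX : MemLp X 2 μ) :
    ∫ ω, ((μ[X | m2]) ω - (μ[X | m1]) ω) ^ 2 ∂μ =
      ∫ ω, (μ[X | m2]) ω ^ 2 ∂μ - ∫ ω, (μ[X | m1]) ω ^ 2 ∂μ := by
  have k1 : MemLp (μ[X | m1]) 2 μ := hX.condExp (by norm_num)
  have k2 : MemLp (μ[X | m2]) 2 μ := hX.condExp (by norm_num)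
  have i1 : Integrable (fun ω => (μ[X | m1]) ω * (μ[X | m2]) ω) μ := k1.integrable_mul k2
  have e1 : ∫ ω, (μ[X | m1]) ω * (μ[X | m2]) ω ∂μ = ∫ ω, (μ[X | m1]) ω ^ 2 ∂μ := by
    have h1 := condExp_mul_of_stronglyMeasurable_left (μ := μ)
      (stronglyMeasurable_condExp (f := X) (m := m1) (μ := μ)) i1 integrable_condExp
    have h3 := condExp_condExp_of_le (μ := μ) (f := X) h12 h2
    rw [← integral_condExp (h12.trans h2) (f := fun ω => (μ[X | m1]) ω * (μ[X | m2]) ω)]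
    refine integral_congr_ae ?_
    filter_upwards [h1, h3] with ω a b
    have a' : (μ[fun ω => (μ[X | m1]) ω * (μ[X | m2]) ω | m1]) ω =
      (μ[X | m1]) ω * (μ[μ[X | m2] | m1]) ω := a
    rw [a', b]
    ring
  have e2 : (fun ω => ((μ[X | m2]) ω - (μ[X | m1]) ω) ^ 2) = fun ω =>
      (μ[X | m2]) ω ^ 2 + (-2) * ((μ[X | m1]) ω * (μ[X | m2]) ω) + (μ[X | m1]) ω ^ 2 := by
    funext ω
    ring
  rw [e2, int3 k2.integrable_sq i1 k1.integrable_sq, e1]
  ring

end Vale.Agent.P153.Asm
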