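import Vale.Agent.P153.Asm.Strip3

/-!
# From the strips to the plane
-/

namespace Vale.Agent.P153.Asm

open MeasureTheory Filter Finset
open scoped Topology ENNReal
open Vale.Agent.P153.CLT

/-- A function of a configuration that is continuous and depends on finitely many sites of the
window. -/
def Loc (lo hi : ℤ) (φ : (ℤ × ℤ → ℝ) → ℝ) : Prop :=
  Continuous φ ∧ ∃ S : Finset (ℤ × ℤ), (∀ p ∈ S, lo ≤ p.1 ∧ p.1 ≤ hi) ∧
    ∀ x y : ℤ × ℤ → ℝ, (∀ p ∈ S, x p = y p) → φ x = φ y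

/-- Local convergence of height differences in the window. -/
def LocConv {Ωs : ℕ → Type*} [∀ n, MeasurableSpace (Ωs n)] (μs : ∀ n, Measure (Ωs n))
    (hs : ∀ n, ℤ × ℤ → Ωs n → ℝ) {Ω : Type*} [MeasurableSpace Ω] (P : Measure Ω)
    (h : ℤ × ℤ → Ω → ℝ) (lo hi : ℤ) : Prop :=
  ∀ φ : (ℤ × ℤ → ℝ) → ℝ, Loc lo hi φ →
    Tendsto (fun n => ∫ ω, φ (fun p => hs n p ω - hs n (0, 0) ω) ∂(μs n)) atTop
      (𝓝 (∫ ω, φ (fun p => h p ω - h (0, 0) ω) ∂P))

/-- `P` is, on each window, a limit of row models. -/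
def RowLim {Ω : Type*} [MeasurableSpace Ω] (P : Measure Ω) (h : ℤ × ℤ → Ω → ℝ) (B : ℝ) : Prop :=
  ∀ H : ℕ, ∃ (Ωs : ℕ → Type) (_ : ∀ n, MeasurableSpace (Ωs n)) (μs : ∀ n, Measure (Ωs n))
    (Fs : ∀ n, ℤ → MeasurableSpace (Ωs n)) (hs : ∀ n, ℤ × ℤ → Ωs n → ℝ),
    (∀ n, IsProbabilityMeasure (μs n)) ∧
    (∀ n, Rows (μs n) (Fs n) (hs n) B (-(H : ℤ)) H) ∧
    LocConv μs hs P h (-(H : ℤ)) H

section

variable {Ωs : ℕ → Type*} [∀ n, MeasurableSpace (Ωs n)] {μs : ∀ n, Measure (Ωs n)}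
  {hs : ∀ n, ℤ × ℤ → Ωs n → ℝ} {Ω : Type*} [mΩ : MeasurableSpace Ω] {P : Measure Ω}
  {h : ℤ × ℤ → Ω → ℝ} {lo hi : ℤ}

lemma LocConv.msd (L : LocConv μs hs P h lo hi) {p q : ℤ × ℤ} (hp : lo ≤ p.1 ∧ p.1 ≤ hi)
    (hq : lo ≤ q.1 ∧ q.1 ≤ hi) :
    Tendsto (fun n => msd (μs n) (hs n) p q) atTop (𝓝 (msd P h p q)) := by
  have h1 := L (fun x => (x p - x q) ^ 2) ⟨by fun_prop, {p, q}, by simp [hp, hq], fun x y hxy => by
    simp only
    rw [hxy p (by simp), hxy q (by simp)]⟩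
  unfold Asm.msd
  simpa using h1

/-- Linear functionals. -/
lemma LocConv.lin_cos (L : LocConv μs hs P h lo hi) (A : Finset (ℤ × ℤ))
    (hA : ∀ w ∈ A, lo ≤ w.1 ∧ w.1 ≤ hi) (a : ℤ × ℤ → ℝ)
    (ha : ∑ w ∈ A, a w = 0) {u : ℝ → ℝ} (hu : Continuous u) :
    Tendsto (fun n => ∫ ω, u (∑ w ∈ A, a w * hs n w ω) ∂(μs n)) atTop
      (𝓝 (∫ ω, u (∑ w ∈ A, a w * h w ω) ∂P)) := by
  have h1 := L (fun x => u (∑ w ∈ A, a w * x w)) ⟨by fun_prop, A, hA, fun x y hxy => by
    simp only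
    congr 1
    exact Finset.sum_congr rfl fun w hw => by rw [hxy w hw]⟩
  have e : ∀ (x : ℤ × ℤ → ℝ) (c : ℝ), ∑ w ∈ A, a w * (x w - c) = ∑ w ∈ A, a w * x w := by
    intro x c
    simp only [mul_sub, Finset.sum_sub_distrib]
    rw [← Finset.sum_mul, ha]
    ring
  simpa only [e] using h1

lemma LocConv.dev {ι β : Type} [Fintype ι] [Fintype β] [DecidableEq β]
    (L : LocConv μs hs P h lo hi) (G : Geo ι β) {J : ℕ} {T : ℤ} (W : G.In lo hi J T)
    (g : ℕ → ι → ℝ) (s : ℝ) :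
    Tendsto (fun n => dev (μs n) (hs n) G g J s) atTop (𝓝 (dev P h G g J s)) := by
  classical
  have h1 := L (fun x => |∑ j ∈ range J, ∑ c : β,
      (∑ i ∈ sT G.b {c}, g j i * (x (G.site j i) - x (G.base j i))) ^ 2 - s|)
    ⟨by fun_prop, (range J).biUnion fun j => (univ : Finset ι).image (G.site j) ∪
      (univ : Finset ι).image (G.base j), by
      intro p hp
      simp only [mem_biUnion, mem_union, mem_image, mem_univ, true_and] at hp
      obtain ⟨j, hj, hp⟩ := hp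
      obtain ⟨w1, w2, -⟩ := W.mid (Finset.mem_range.1 hj)
      have w3 := G.l_mono (Nat.le_succ j)
      rcases hp with ⟨i, rfl⟩ | ⟨i, rfl⟩
      · exact ⟨w1.trans w3, w2⟩
      · exact ⟨w1, w3.trans w2⟩, fun x y hxy => by
    simp only
    congr 2
    refine Finset.sum_congr rfl fun j hj => Finset.sum_congr rfl fun c _ => ?_
    congr 1
    refine Finset.sum_congr rfl fun i _ => ?_
    rw [hxy (G.site j i), hxy (G.base j i)]
    · exact mem_biUnion.2 ⟨j, hj, mem_union_right _ (mem_image_of_mem _ (mem_univ _))⟩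
    · exact mem_biUnion.2 ⟨j, hj, mem_union_left _ (mem_image_of_mem _ (mem_univ _))⟩⟩
  have e : ∀ a b c : ℝ, a - c - (b - c) = a - b := fun a b c => by ring
  simp only [e] at h1
  exact h1

end

lemma integral_ei_eq {Ω : Type*} [MeasurableSpace Ω] {μ : Measure Ω} [IsProbabilityMeasure μ]
    {X : Ω → ℝ} (hX : Measurable X) :
    ∫ ω, ei (X ω) ∂μ = ((∫ ω, Real.cos (X ω) ∂μ : ℝ) : ℂ) +
      ((∫ ω, Real.sin (X ω) ∂μ : ℝ) : ℂ) * Complex.I := by
  have hi := integrable_ei (μ := μ) hX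
  apply Complex.ext
  · have h1 : (∫ ω, ei (X ω) ∂μ).re = ∫ ω, (ei (X ω)).re ∂μ := (integral_re hi).symm
    simp only [ei_re] at h1
    simp [h1]
  · have h1 : (∫ ω, ei (X ω) ∂μ).im = ∫ ω, (ei (X ω)).im ∂μ := (integral_im hi).symm
    simp only [ei_im] at h1
    simp [h1]

/-- **Plane inequality**, windowed form. -/
theorem plane_window {Ωs : ℕ → Type*} [∀ n, MeasurableSpace (Ωs n)] {μs : ∀ n, Measure (Ωs n)}
    [∀ n, IsProbabilityMeasure (μs n)] {Fs : ∀ n, ℤ → MeasurableSpace (Ωs n)}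
    {hs : ∀ n, ℤ × ℤ → Ωs n → ℝ} {B : ℝ} {lo hi : ℤ}
    (R : ∀ n, Rows (μs n) (Fs n) (hs n) B lo hi) (hB : 0 ≤ B)
    {Ω : Type*} [MeasurableSpace Ω] {P : Measure Ω} [IsProbabilityMeasure P]
    {h : ℤ × ℤ → Ω → ℝ} (hm : ∀ p, Measurable (h p)) (L : LocConv μs hs P h lo hi)
    {ι β : Type} [Fintype ι] [Fintype β] [DecidableEq β] (G : Geo ι β) {J : ℕ} {T : ℤ}
    (W : G.In lo hi J T) (hK : 0 < G.K)
    (A : Finset (ℤ × ℤ)) (hAT : ∀ w ∈ A, lo ≤ w.1 ∧ w.1 ≤ T) (a : ℤ × ℤ → ℝ)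
    (ha : ∑ w ∈ A, a w = 0) (g : ℕ → ι → ℝ)
    {η : ℝ} (hη1 : η ≤ 1) (hη : ∀ j c, ∑ i ∈ sT G.b {c}, |g j i| * (2 * (B * G.K)) ≤ η)
    (s : ℝ) (hs0 : 0 ≤ s) (t : ℝ) (ht : 0 < t) :
    ‖∫ ω, ei (∑ w ∈ A, a w * h w ω) ∂P - ((Real.exp (-s / 2) : ℝ) : ℂ)‖ ≤
      Real.sqrt (err2 (msd P h) G A a g J) +
      2 * (4 * vcross (msd P h) G g J + η * vsq (msd P h) G g J) +
      (s + 4) * (dev P h G g J s + t * vloc (msd P h) G g J +
        (1 + 1 / t) * vdel (msd P h) G g J + Real.sqrt J * (Fintype.card β * η ^ 2)) := by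
  have key := fun n => strip (R n) hB G W hK A (fun w hw => (hAT w hw).2) a ha g hη1 hη s hs0 t ht
  have inA : ∀ w ∈ A, lo ≤ w.1 ∧ w.1 ≤ hi := fun w hw =>
    ⟨(hAT w hw).1, (hAT w hw).2.trans W.top⟩
  have inS : ∀ j < J, ∀ i, lo ≤ (G.site j i).1 ∧ (G.site j i).1 ≤ hi := fun j hj i =>
    ⟨(W.mid hj).1.trans (G.l_mono (Nat.le_succ j)), (W.mid hj).2.1⟩
  have inB : ∀ j < J, ∀ i, lo ≤ (G.base j i).1 ∧ (G.base j i).1 ≤ hi := fun j hj i =>
    ⟨(W.mid hj).1, (G.l_mono (Nat.le_succ j)).trans (W.mid hj).2.1⟩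
  have inR : ∀ j < J, ∀ i, lo ≤ (rho (G.l j) (G.site j i)).1 ∧
      (rho (G.l j) (G.site j i)).1 ≤ hi := fun j hj i => by
    obtain ⟨a1, a2, a3⟩ := W.site hj i
    refine ⟨a3, ?_⟩
    show 2 * G.l j - (G.site j i).1 ≤ hi
    have := (inB j hj i).2
    have e : (G.base j i).1 = G.l j := rfl
    rw [e] at this
    linarith
  have hV : ∀ p q : ℤ × ℤ, (lo ≤ p.1 ∧ p.1 ≤ hi) → (lo ≤ q.1 ∧ q.1 ≤ hi) →
      Tendsto (fun n => msd (μs n) (hs n) p q) atTop (𝓝 (msd P h p q)) :=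
    fun p q hp hq => L.msd hp hq
  have l1 : Tendsto (fun n => ‖∫ ω, ei (∑ w ∈ A, a w * hs n w ω) ∂(μs n) -
      ((Real.exp (-s / 2) : ℝ) : ℂ)‖) atTop
      (𝓝 ‖∫ ω, ei (∑ w ∈ A, a w * h w ω) ∂P - ((Real.exp (-s / 2) : ℝ) : ℂ)‖) := by
    refine (Tendsto.sub_const ?_ _).norm
    have hm1 : ∀ n, Measurable (fun ω => ∑ w ∈ A, a w * hs n w ω) := fun n =>
      Finset.measurable_sum _ fun w _ => ((R n).measΩ w).const_mul _
    have hm2 : Measurable (fun ω => ∑ w ∈ A, a w * h w ω) :=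
      Finset.measurable_sum _ fun w _ => (hm w).const_mul _
    rw [integral_ei_eq hm2]
    have e : ∀ n, ∫ ω, ei (∑ w ∈ A, a w * hs n w ω) ∂(μs n) =
        ((∫ ω, Real.cos (∑ w ∈ A, a w * hs n w ω) ∂(μs n) : ℝ) : ℂ) +
        ((∫ ω, Real.sin (∑ w ∈ A, a w * hs n w ω) ∂(μs n) : ℝ) : ℂ) * Complex.I :=
      fun n => integral_ei_eq (hm1 n)
    simp only [e]
    have c1 := L.lin_cos A inA a ha Real.continuous_cos
    have c2 := L.lin_cos A inA a ha Real.continuous_sin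
    exact ((Complex.continuous_ofReal.tendsto _).comp c1).add
      (((Complex.continuous_ofReal.tendsto _).comp c2).mul_const _)
  have l2 : Tendsto (fun n => err2 (msd (μs n) (hs n)) G A a g J) atTop
      (𝓝 (err2 (msd P h) G A a g J)) := by
    unfold err2
    refine (((tendsto_finsetSum _ fun w hw => tendsto_finsetSum _ fun w' hw' =>
      (hV w w' (inA w hw) (inA w' hw')).const_mul _).const_mul _).sub
      ((tendsto_finsetSum _ fun j hj => tendsto_finsetSum _ fun i _ =>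
      (tendsto_finsetSum _ fun w hw => ?_).const_mul _).const_mul
      _)).add (tendsto_finsetSum _ fun j hj => tendsto_finsetSum _ fun i _ =>
      tendsto_finsetSum _ fun i' _ => (((hV _ _ (inS j (mem_range.1 hj) i)
        (inR j (mem_range.1 hj) i')).sub (hV _ _ (inS j (mem_range.1 hj) i)
        (inS j (mem_range.1 hj) i'))).div_const _).const_mul _)
    split_ifs
    · exact (((hV _ _ (inA w hw) (inR j (mem_range.1 hj) i)).sub (hV _ _ (inA w hw)
        (inS j (mem_range.1 hj) i))).div_const _).const_mul _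
    · exact tendsto_const_nhds
  have l3 : Tendsto (fun n => vcross (msd (μs n) (hs n)) G g J) atTop
      (𝓝 (vcross (msd P h) G g J)) := by
    unfold vcross
    refine tendsto_finsetSum _ fun j hj => tendsto_finsetSum _ fun i _ =>
      tendsto_finsetSum _ fun i' _ => ?_
    split_ifs
    · exact tendsto_const_nhds
    · exact (((hV _ _ (inS j (mem_range.1 hj) i)
        (inR j (mem_range.1 hj) i')).sub (hV _ _ (inS j (mem_range.1 hj) i)
        (inS j (mem_range.1 hj) i'))).div_const _).const_mul _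
  have l4 : Tendsto (fun n => vsq (msd (μs n) (hs n)) G g J) atTop
      (𝓝 (vsq (msd P h) G g J)) := by
    unfold vsq
    exact tendsto_finsetSum _ fun j hj => tendsto_finsetSum _ fun c _ =>
      tendsto_finsetSum _ fun i _ => tendsto_finsetSum _ fun i' _ =>
      (((hV _ _ (inS j (mem_range.1 hj) i) (inR j (mem_range.1 hj) i')).sub
        (hV _ _ (inS j (mem_range.1 hj) i) (inS j (mem_range.1 hj) i'))).div_const _).const_mul _
  have l5 : Tendsto (fun n => vloc (msd (μs n) (hs n)) G g J) atTop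
      (𝓝 (vloc (msd P h) G g J)) := by
    unfold vloc
    refine tendsto_finsetSum _ fun j hj => tendsto_finsetSum _ fun c _ =>
      tendsto_finsetSum _ fun i _ => tendsto_finsetSum _ fun i' _ => ?_
    have hj := mem_range.1 hj
    exact (((((hV _ _ (inS j hj i) (inB j hj i')).add (hV _ _ (inB j hj i) (inS j hj i'))).sub
      (hV _ _ (inS j hj i) (inS j hj i'))).sub
      (hV _ _ (inB j hj i) (inB j hj i'))).div_const _).const_mul _
  have l6 : Tendsto (fun n => vdel (msd (μs n) (hs n)) G g J) atTop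
      (𝓝 (vdel (msd P h) G g J)) := by
    unfold vdel
    refine tendsto_finsetSum _ fun j hj => tendsto_finsetSum _ fun c _ =>
      tendsto_finsetSum _ fun i _ => tendsto_finsetSum _ fun i' _ => ?_
    have hj := mem_range.1 hj
    exact (((((hV _ _ (inS j hj i) (inB j hj i')).add (hV _ _ (inB j hj i) (inR j hj i'))).sub
      (hV _ _ (inS j hj i) (inR j hj i'))).sub
      (hV _ _ (inB j hj i) (inB j hj i'))).div_const _).const_mul _
  have l7 := L.dev G W g s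
  refine le_of_tendsto_of_tendsto' l1 ?_ key
  exact ((l2.sqrt).add (((l3.const_mul 4).add (l4.const_mul η)).const_mul 2)).add
    ((((l7.add (l5.const_mul t)).add (l6.const_mul _)).add_const _).const_mul _)

/-- **Plane inequality.** -/
theorem plane {B : ℝ} (hB : 0 ≤ B) {Ω : Type*} [MeasurableSpace Ω] {P : Measure Ω}
    [IsProbabilityMeasure P] {h : ℤ × ℤ → Ω → ℝ} (hm : ∀ p, Measurable (h p))
    (L : RowLim P h B)
    {ι β : Type} [Fintype ι] [Fintype β] [DecidableEq β] (G : Geo ι β) (hK : 0 < G.K)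
    (A : Finset (ℤ × ℤ)) (a : ℤ × ℤ → ℝ) (ha : ∑ w ∈ A, a w = 0) (g : ℕ → ι → ℝ) (J : ℕ)
    {η : ℝ} (hη1 : η ≤ 1) (hη : ∀ j c, ∑ i ∈ sT G.b {c}, |g j i| * (2 * (B * G.K)) ≤ η)
    (s : ℝ) (hs0 : 0 ≤ s) (t : ℝ) (ht : 0 < t) :
    ‖∫ ω, ei (∑ w ∈ A, a w * h w ω) ∂P - ((Real.exp (-s / 2) : ℝ) : ℂ)‖ ≤
      Real.sqrt (err2 (msd P h) G A a g J) +
      2 * (4 * vcross (msd P h) G g J + η * vsq (msd P h) G g J) +
      (s + 4) * (dev P h G g J s + t * vloc (msd P h) G g J +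
        (1 + 1 / t) * vdel (msd P h) G g J + Real.sqrt J * (Fintype.card β * η ^ 2)) := by
  set T : ℤ := |G.l J| + ∑ w ∈ A, |w.1| with hT
  set H : ℕ := (T + 2 * |G.l 0|).toNat with hH
  have hT0 : 0 ≤ T := add_nonneg (abs_nonneg _) (Finset.sum_nonneg fun w _ => abs_nonneg _)
  have hH' : (H : ℤ) = T + 2 * |G.l 0| := Int.toNat_of_nonneg (by positivity)
  have hw : ∀ w ∈ A, |w.1| ≤ T := fun w hw => by
    have h1 := Finset.single_le_sum (f := fun w : ℤ × ℤ => |w.1|) (fun w _ => abs_nonneg w.1) hw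
    have h2 := abs_nonneg (G.l J)
    linarith
  have h0 := abs_nonneg (G.l 0)
  have h3 := neg_abs_le (G.l 0)
  have h4 := le_abs_self (G.l J)
  have h5 : 0 ≤ ∑ w ∈ A, |w.1| := Finset.sum_nonneg fun w _ => abs_nonneg _
  obtain ⟨Ωs, mΩs, μs, Fs, hs, p1, p2, p3⟩ := L H
  have W : G.In (-(H : ℤ)) H J T := ⟨by linarith, by linarith, by linarith⟩
  exact plane_window p2 hB hm p3 G W hK A (fun w hwA => by
    have := abs_le.1 (hw w hwA)
    exact ⟨by linarith [this.1], this.2⟩) a ha g hη1 hη s hs0 t ht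

/-- Positivity of the covariances of the innovations. -/
theorem crV_nonneg {Ω : Type*} {mΩ : MeasurableSpace Ω} {μ : Measure Ω} [IsProbabilityMeasure μ]
    {F : ℤ → MeasurableSpace Ω} {h : ℤ × ℤ → Ω → ℝ} {B : ℝ} {lo hi : ℤ}
    (R : Rows μ F h B lo hi) {l : ℤ} {p q : ℤ × ℤ} (hp : Win lo hi l p) (hq : Win lo hi l q)
    (hp' : l < p.1) (hq' : l < q.1) : 0 ≤ crV (msd μ h) l p q := by
  have hlo : lo ≤ l := by
    obtain ⟨a, b, c⟩ := hp
    linarith
  have hnp := R.np l (fun i : Fin 2 => if i = 0 then p else q) hlo (by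
    intro i
    split_ifs
    · exact ⟨hp', hp.2.1⟩
    · exact ⟨hq', hq.2.1⟩)
  have h1 := hnp.nn 0 1
  simp only [if_true, Fin.isValue, one_ne_zero, if_false] at h1
  have e : crV (msd μ h) l p q = ∫ ω, ccov μ (F l) (h p) (h q) ω ∂μ := by
    have e1 : crV (msd μ h) l p q = cr μ h l p q := rfl
    rw [e1, ← R.int_inn_inn l p q hp hq]
    have mp := R.memLp_condExp l p
    have mq := R.memLp_condExp l q
    have bp := (R.bm p).memLp (μ := μ) 2
    have bq := (R.bm q).memLp (μ := μ) 2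
    have i1 : Integrable (fun ω => h p ω * h q ω) μ := bp.integrable_mul bq
    have i2 : Integrable (fun ω => (μ[h p | F l]) ω * (μ[h q | F l]) ω) μ := mp.integrable_mul mq
    have i3 : Integrable (fun ω => (μ[h p | F l]) ω * inn μ F h l q ω) μ :=
      mp.integrable_mul (R.memLp_inn l q)
    have i4 : Integrable (fun ω => h p ω * inn μ F h l q ω) μ :=
      bp.integrable_mul (R.memLp_inn l q)
    have i5 : Integrable (fun ω => h p ω * (μ[h q | F l]) ω) μ := bp.integrable_mul mq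
    have z : ∫ ω, (μ[h p | F l]) ω * inn μ F h l q ω ∂μ = 0 := by
      have e3 : (fun ω => (μ[h p | F l]) ω * inn μ F h l q ω) =
          fun ω => inn μ F h l q ω * (μ[h p | F l]) ω := by
        funext ω
        ring
      rw [e3]
      exact R.int_inn_mul l q mp stronglyMeasurable_condExp.aestronglyMeasurable
    have e2 : (fun ω => inn μ F h l p ω * inn μ F h l q ω) =
        fun ω => h p ω * inn μ F h l q ω - (μ[h p | F l]) ω * inn μ F h l q ω := by
      funext ω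
      simp only [inn]
      ring
    have e3 : (fun ω => h p ω * inn μ F h l q ω) =
        fun ω => h p ω * h q ω - h p ω * (μ[h q | F l]) ω := by
      funext ω
      simp only [inn]
      ring
    have e4 := int_condExp_mul (μ := μ) (R.hF l) (R.bm p) mq
      stronglyMeasurable_condExp.aestronglyMeasurable
    rw [e2, integral_sub i4 i3, z, sub_zero, e3, integral_sub i1 i5, ← e4]
    have e5 : ccov μ (F l) (h p) (h q) = fun ω => (μ[fun ω => h p ω * h q ω | F l]) ω -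
        (μ[h p | F l]) ω * (μ[h q | F l]) ω := rfl
    rw [e5, integral_sub integrable_condExp i2, integral_condExp (R.hF l)]
  rw [e]
  exact integral_nonneg_of_ae h1

/-- The same for the plane. -/
theorem crV_nonneg_plane {B : ℝ} {Ω : Type*} [MeasurableSpace Ω] {P : Measure Ω}
    {h : ℤ × ℤ → Ω → ℝ} (L : RowLim P h B) {l : ℤ} {p q : ℤ × ℤ}
    (hp : l < p.1) (hq : l < q.1) : 0 ≤ crV (msd P h) l p q := by
  set H : ℕ := (2 * |l| + |p.1| + |q.1|).toNat with hH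
  have hH' : (H : ℤ) = 2 * |l| + |p.1| + |q.1| := Int.toNat_of_nonneg (by positivity)
  obtain ⟨Ωs, mΩs, μs, Fs, hs, p1, p2, p3⟩ := L H
  have a1 := abs_nonneg l
  have a2 := abs_nonneg p.1
  have a3 := abs_nonneg q.1
  have a4 := le_abs_self p.1
  have a5 := le_abs_self q.1
  have a6 := neg_abs_le p.1
  have a7 := neg_abs_le q.1
  have a8 := neg_abs_le l
  have a9 := le_abs_self l
  have wp : Win (-(H : ℤ)) H l p := ⟨hp.le, by linarith, by linarith⟩
  have wq : Win (-(H : ℤ)) H l q := ⟨hq.le, by linarith, by linarith⟩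
  have key : ∀ n, 0 ≤ crV (msd (μs n) (hs n)) l p q := fun n =>
    crV_nonneg (p2 n) wp wq hp hq
  have t : Tendsto (fun n => crV (msd (μs n) (hs n)) l p q) atTop (𝓝 (crV (msd P h) l p q)) := by
    unfold crV
    have b1 := p3.msd (p := p) (q := rho l q) ⟨by linarith, by linarith⟩
      ⟨by simp only [rho]; linarith, by simp only [rho]; linarith⟩
    have b2 := p3.msd (p := p) (q := q) ⟨by linarith, by linarith⟩ ⟨by linarith, by linarith⟩
    exact (b1.sub b2).div_const _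
  exact ge_of_tendsto' t key

end Vale.Agent.P153.Asm
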