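import Vale.Agent.P153.Asm.Err

/-!
# Positivity of the approximation error and its consequences
-/

namespace Vale.Agent.P153.Asm

open MeasureTheory Filter Finset
open scoped Topology
open Vale.Agent.P153.CLT Vale.Agent.P153.TwoPt

/-- The approximation error is nonnegative. -/
theorem err2_nonneg {B : ℝ} {Ω : Type*} [MeasurableSpace Ω] {P : Measure Ω}
    {h : ℤ × ℤ → Ω → ℝ} (L : RowLim P h B)
    {ι β : Type} [Fintype ι] (G : Geo ι β)
    (A : Finset (ℤ × ℤ)) (a : ℤ × ℤ → ℝ) (ha : ∑ w ∈ A, a w = 0) (g : ℕ → ι → ℝ) (J : ℕ) :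
    0 ≤ err2 (msd P h) G A a g J := by
  set T : ℤ := |G.l J| + ∑ w ∈ A, |w.1| with hT
  set H : ℕ := (T + 2 * |G.l 0|).toNat with hH
  have hT0 : 0 ≤ T := add_nonneg (abs_nonneg _) (Finset.sum_nonneg fun w _ => abs_nonneg _)
  have hH' : (H : ℤ) = T + 2 * |G.l 0| := Int.toNat_of_nonneg (by positivity)
  have hw : ∀ w ∈ A, |w.1| ≤ T := fun w hw => by
    have h1 := Finset.single_le_sum (f := fun w : ℤ × ℤ => |w.1|) (fun w _ => abs_nonneg w.1) hw
    have h2 := abs_nonneg (G.l J)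
    linarith
  have h0 := abs_nonneg (G.l 0)
  have h3 := neg_abs_le (G.l 0)
  have h4 := le_abs_self (G.l J)
  have h5 : 0 ≤ ∑ w ∈ A, |w.1| := Finset.sum_nonneg fun w _ => abs_nonneg _
  obtain ⟨Ωs, mΩs, μs, Fs, hs, p1, p2, p3⟩ := L H
  have W : G.In (-(H : ℤ)) H J T := ⟨by linarith, by linarith, by linarith⟩
  have inA : ∀ w ∈ A, -(H : ℤ) ≤ w.1 ∧ w.1 ≤ H := fun w hwA => by
    have := abs_le.1 (hw w hwA)
    exact ⟨by linarith [this.1], by linarith [this.2]⟩
  have inS : ∀ j < J, ∀ i, -(H : ℤ) ≤ (G.site j i).1 ∧ (G.site j i).1 ≤ H := fun j hj i =>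
    ⟨(W.mid hj).1.trans (G.l_mono (Nat.le_succ j)), (W.mid hj).2.1⟩
  have inR : ∀ j < J, ∀ i, -(H : ℤ) ≤ (rho (G.l j) (G.site j i)).1 ∧
      (rho (G.l j) (G.site j i)).1 ≤ H := fun j hj i => by
    obtain ⟨a1, a2, a3⟩ := W.site hj i
    refine ⟨a3, ?_⟩
    show 2 * G.l j - (G.site j i).1 ≤ H
    have h6 := (W.mid hj).2.1
    have h7 := G.l_mono (Nat.le_succ j)
    have e : (G.site j i).1 = G.l (j + 1) := rfl
    rw [e]
    linarith
  have hV : ∀ p q : ℤ × ℤ, (-(H : ℤ) ≤ p.1 ∧ p.1 ≤ H) → (-(H : ℤ) ≤ q.1 ∧ q.1 ≤ H) →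
      Tendsto (fun n => msd (μs n) (hs n) p q) atTop (𝓝 (msd P h p q)) :=
    fun p q hp hq => p3.msd hp hq
  have key : ∀ n, 0 ≤ err2 (msd (μs n) (hs n)) G A a g J := fun n => by
    rw [← int_sq_XY (p2 n) G W A (fun w hwA => (le_abs_self _).trans (hw w hwA)) a ha g]
    exact integral_nonneg fun ω => sq_nonneg _
  have l2 : Tendsto (fun n => err2 (msd (μs n) (hs n)) G A a g J) atTop
      (𝓝 (err2 (msd P h) G A a g J)) := by
    unfold err2
    refine (((tendsto_finsetSum _ fun w hw => tendsto_finsetSum _ fun w' hw' =>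
      (hV w w' (inA w hw) (inA w' hw')).const_mul _).const_mul _).sub
      ((tendsto_finsetSum _ fun j hj => tendsto_finsetSum _ fun i _ =>
      (tendsto_finsetSum _ fun w hw => ?_).const_mul _).const_mul
      _)).add (tendsto_finsetSum _ fun j hj => tendsto_finsetSum _ fun i _ =>
      tendsto_finsetSum _ fun i' _ => (((hV _ _ (inS j (mem_range.1 hj) i)
        (inR j (mem_range.1 hj) i')).sub (hV _ _ (inS j (mem_range.1 hj) i)
        (inS j (mem_range.1 hj) i'))).div_const _).const_mul _)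
    split_ifs
    · exact (((hV _ _ (inA w hw) (inR j (mem_range.1 hj) i)).sub (hV _ _ (inA w hw)
        (inS j (mem_range.1 hj) i))).div_const _).const_mul _
    · exact tendsto_const_nhds
  exact ge_of_tendsto' l2 key

lemma quad_bound {A C V : ℝ} (h : ∀ x : ℝ, 0 ≤ x ^ 2 * A - 2 * (x * C) + V) :
    0 ≤ A ∧ 0 ≤ V ∧ C ^ 2 ≤ A * V := by
  have h1 : ∀ x : ℝ, 0 ≤ A * (x * x) + (-2 * C) * x + V := fun x => by
    have := h x
    nlinarith
  have h2 := discrim_le_zero h1
  unfold discrim at h2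
  have hV : 0 ≤ V := by simpa using h 0
  refine ⟨?_, hV, by nlinarith⟩
  by_contra hA
  push Not at hA
  -- large x gives a contradiction
  have h3 := h ((V + 1 + |C|) / (-A) + 1)
  set y := (V + 1 + |C|) / (-A) with hy
  have hy0 : 0 ≤ y := div_nonneg (by positivity) (by linarith)
  have hyA : y * (-A) = V + 1 + |C| := div_mul_cancel₀ _ (by linarith)
  have hC2 : C ^ 2 ≤ A * V := by nlinarith
  have hC0 : C = 0 := by
    have : C ^ 2 ≤ 0 := hC2.trans (mul_nonpos_of_nonpos_of_nonneg hA.le hV)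
    exact pow_eq_zero_iff (two_ne_zero) |>.1 (le_antisymm this (sq_nonneg _))
  rw [hC0] at h3 hyA
  simp only [abs_zero, add_zero, mul_zero, sub_zero] at h3 hyA
  nlinarith

lemma sqrt_close {A C V : ℝ} (hA : 0 ≤ A) (hV : 0 ≤ V) (h : C ^ 2 ≤ A * V) :
    |V - A| ≤ Real.sqrt (A - 2 * C + V) * (2 * Real.sqrt A + Real.sqrt (A - 2 * C + V)) := by
  set x := Real.sqrt A with hx
  set y := Real.sqrt V with hy
  have hx2 : x ^ 2 = A := Real.sq_sqrt hA
  have hy2 : y ^ 2 = V := Real.sq_sqrt hV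
  have hx0 : 0 ≤ x := Real.sqrt_nonneg _
  have hy0 : 0 ≤ y := Real.sqrt_nonneg _
  have hC : C ≤ x * y := by
    have h1 : C ^ 2 ≤ (x * y) ^ 2 := by rw [mul_pow, hx2, hy2]; exact h
    exact (le_abs_self C).trans (abs_le_of_sq_le_sq h1 (by positivity))
  have h1 : (x - y) ^ 2 ≤ A - 2 * C + V := by nlinarith
  set e := Real.sqrt (A - 2 * C + V) with he
  have he0 : 0 ≤ e := Real.sqrt_nonneg _
  have h2 : |x - y| ≤ e := Real.abs_le_sqrt h1
  have h3 : V - A = (y - x) * (y + x) := by rw [← hx2, ← hy2]; ring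
  rw [h3, abs_mul, abs_sub_comm, abs_of_nonneg (by positivity : 0 ≤ y + x)]
  have h4 : y ≤ x + e := by
    have := (abs_le.1 h2).1
    linarith
  exact mul_le_mul h2 (by linarith) (by positivity) he0

lemma exp_close {s s' : ℝ} (hs : 0 ≤ s) (hs' : 0 ≤ s') :
    |Real.exp (-s / 2) - Real.exp (-s' / 2)| ≤ |s - s'| / 2 := by
  have key : ∀ x y : ℝ, 0 ≤ x → x ≤ y → Real.exp (-x) - Real.exp (-y) ≤ y - x := by
    intro x y hx hxy
    have h1 : Real.exp (-y) = Real.exp (-x) * Real.exp (-(y - x)) := by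
      rw [← Real.exp_add]
      congr 1
      ring
    have h2 := Real.add_one_le_exp (-(y - x))
    have h3 : Real.exp (-x) ≤ 1 := Real.exp_le_one_iff.2 (by linarith)
    have h4 : 0 ≤ Real.exp (-x) := (Real.exp_pos _).le
    rw [h1]
    have h5 : Real.exp (-x) - Real.exp (-x) * Real.exp (-(y - x)) =
        Real.exp (-x) * (1 - Real.exp (-(y - x))) := by ring
    rw [h5]
    have h6 : 1 - Real.exp (-(y - x)) ≤ y - x := by linarith
    have h7 : 0 ≤ y - x := by linarith
    calc Real.exp (-x) * (1 - Real.exp (-(y - x))) ≤ Real.exp (-x) * (y - x) :=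
          mul_le_mul_of_nonneg_left h6 h4
      _ ≤ 1 * (y - x) := mul_le_mul_of_nonneg_right h3 h7
      _ = y - x := one_mul _
  have mono : ∀ x y : ℝ, x ≤ y → Real.exp (-y) ≤ Real.exp (-x) := fun x y hxy =>
    Real.exp_le_exp.2 (by linarith)
  rcases le_total s s' with h | h
  · have h1 := key (s / 2) (s' / 2) (by linarith) (by linarith)
    have h2 := mono (s / 2) (s' / 2) (by linarith)
    have e1 : -s / 2 = -(s / 2) := by ring
    have e2 : -s' / 2 = -(s' / 2) := by ring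
    rw [e1, e2, abs_of_nonneg (by linarith), abs_of_nonpos (by linarith)]
    linarith
  · have h1 := key (s' / 2) (s / 2) (by linarith) (by linarith)
    have h2 := mono (s' / 2) (s / 2) (by linarith)
    have e1 : -s / 2 = -(s / 2) := by ring
    have e2 : -s' / 2 = -(s' / 2) := by ring
    rw [e1, e2, abs_of_nonpos (by linarith), abs_of_nonneg (by linarith)]
    linarith

end Vale.Agent.P153.Asm
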