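import Vale.Agent.P153.Asm.Orth

/-!
# The abstract row model

`h p` is the height at the site `p = (row, position)`.  `F l` is generated by the rows `≤ l`.
Two structural facts are used: reflection (`refl`, `inv`) and the conditional Newman property.
-/

namespace Vale.Agent.P153.Asm

open MeasureTheory Filter Finset
open scoped Topology ENNReal
open Vale.Agent.P153.CLT

variable {Ω : Type*} {mΩ : MeasurableSpace Ω} {μ : Measure Ω}

lemma int4 {f g k r : Ω → ℝ} (hf : Integrable f μ) (hg : Integrable g μ) (hk : Integrable k μ)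
    (hr : Integrable r μ) (c : ℝ) : ∫ ω, (f ω + c * g ω + k ω - r ω) ∂μ =
      ∫ ω, f ω ∂μ + c * ∫ ω, g ω ∂μ + ∫ ω, k ω ∂μ - ∫ ω, r ω ∂μ := by
  have h1 : ∫ ω, (f ω + c * g ω + k ω - r ω) ∂μ =
      ∫ ω, (f ω + c * g ω + k ω) ∂μ - ∫ ω, r ω ∂μ :=
    integral_sub ((hf.add (hg.const_mul c)).add hk) hr
  rw [h1, int3 hf hg hk]

/-- Reflection of a site in the row `l`. -/
def rho (l : ℤ) (p : ℤ × ℤ) : ℤ × ℤ := (2 * l - p.1, p.2)

/-- Mean square difference of two heights. -/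
noncomputable def msd (μ : Measure[mΩ] Ω) (h : ℤ × ℤ → Ω → ℝ) (p q : ℤ × ℤ) : ℝ :=
  ∫ ω, (h p ω - h q ω) ^ 2 ∂μ

/-- `p` and its reflection in the row `l` are in the window, `p` above the row. -/
def Win (lo hi l : ℤ) (p : ℤ × ℤ) : Prop := l ≤ p.1 ∧ p.1 ≤ hi ∧ lo ≤ 2 * l - p.1

/-- The abstract row model on the rows `lo, ..., hi`. -/
structure Rows (μ : Measure[mΩ] Ω) (F : ℤ → MeasurableSpace Ω) (h : ℤ × ℤ → Ω → ℝ) (B : ℝ)
    (lo hi : ℤ) : Prop where
  hF : ∀ l, F l ≤ mΩ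
  mono : Monotone F
  meas : ∀ p, Measurable[F p.1] (h p)
  bm : ∀ p, BM (mΩ := mΩ) (h p)
  refl : ∀ l p q π π', Win lo hi l p → Win lo hi l q → π.1 = l → π'.1 = l →
    ∫ ω, ((μ[h p | F l]) ω - h π ω) * ((μ[h q | F l]) ω - h π' ω) ∂μ =
      ∫ ω, (h p ω - h π ω) * (h (rho l q) ω - h π' ω) ∂μ
  inv : ∀ l p q, Win lo hi l p → Win lo hi l q →
    msd μ h (rho l p) (rho l q) = msd μ h p q
  np : ∀ l {ι : Type} [Fintype ι] (u : ι → ℤ × ℤ), lo ≤ l → (∀ i, l < (u i).1 ∧ (u i).1 ≤ hi) →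
    NP μ (F l) (fun i => h (u i))
  lip : ∀ j x ω, lo ≤ j → j + 1 ≤ hi → |h (j + 1, x) ω - h (j, x) ω| ≤ B

variable {F : ℤ → MeasurableSpace Ω} {h : ℤ × ℤ → Ω → ℝ} {B : ℝ} {lo hi : ℤ}

lemma Rows.measΩ (R : Rows μ F h B lo hi) (p : ℤ × ℤ) : Measurable[mΩ] (h p) :=
  (R.meas p).mono (R.hF _) le_rfl

lemma integral_mul_eq [IsProbabilityMeasure μ] {X Y : Ω → ℝ} (hX : BM (mΩ := mΩ) X)
    (hY : BM (mΩ := mΩ) Y) :
    ∫ ω, X ω * Y ω ∂μ = (∫ ω, X ω ^ 2 ∂μ + ∫ ω, Y ω ^ 2 ∂μ - ∫ ω, (X ω - Y ω) ^ 2 ∂μ) / 2 := by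
  have i1 : Integrable (fun ω => X ω ^ 2) μ := (hX.memLp 2).integrable_sq
  have i2 : Integrable (fun ω => Y ω ^ 2) μ := (hY.memLp 2).integrable_sq
  have i3 : Integrable (fun ω => X ω * Y ω) μ := (hX.mul hY).integrable
  have e : (fun ω => (X ω - Y ω) ^ 2) = fun ω => X ω ^ 2 + (-2) * (X ω * Y ω) + Y ω ^ 2 := by
    funext ω
    ring
  rw [e, int3 i1 i3 i2]
  ring

lemma Rows.int_mul (_R : Rows μ F h B lo hi) [IsProbabilityMeasure μ] (p q : ℤ × ℤ) :
    ∫ ω, h p ω * h q ω ∂μ =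
      (∫ ω, h p ω ^ 2 ∂μ + ∫ ω, h q ω ^ 2 ∂μ - msd μ h p q) / 2 :=
  integral_mul_eq (_R.bm p) (_R.bm q)

/-- Product of conditional expectations against a product with a measurable factor. -/
lemma int_condExp_mul [IsProbabilityMeasure μ] {m : MeasurableSpace Ω} (hm : m ≤ mΩ) {X Y : Ω → ℝ}
    (hX : BM (mΩ := mΩ) X) (hY : MemLp Y 2 μ) (hYm : AEStronglyMeasurable[m] Y μ) :
    ∫ ω, (μ[X | m]) ω * Y ω ∂μ = ∫ ω, X ω * Y ω ∂μ := by
  have i1 : Integrable (fun ω => X ω * Y ω) μ := (hX.memLp 2).integrable_mul hY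
  have h1 := condExp_mul_of_aestronglyMeasurable_right (μ := μ) hYm i1 hX.integrable
  rw [← integral_condExp hm (f := fun ω => X ω * Y ω)]
  refine (integral_congr_ae ?_).symm
  filter_upwards [h1] with ω a
  exact a

/-- The innovation of `h p` after row `l`. -/
noncomputable def inn (μ : Measure[mΩ] Ω) (F : ℤ → MeasurableSpace Ω) (h : ℤ × ℤ → Ω → ℝ) (l : ℤ)
    (p : ℤ × ℤ) (ω : Ω) : ℝ := h p ω - (μ[h p | F l]) ω

lemma Rows.memLp_condExp (R : Rows μ F h B lo hi) [IsProbabilityMeasure μ] (l : ℤ) (p : ℤ × ℤ) :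
    MemLp (μ[h p | F l]) 2 μ := ((R.bm p).memLp 2).condExp (by norm_num)

lemma Rows.memLp_inn (R : Rows μ F h B lo hi) [IsProbabilityMeasure μ] (l : ℤ) (p : ℤ × ℤ) :
    MemLp (inn μ F h l p) 2 μ := ((R.bm p).memLp 2).sub (R.memLp_condExp l p)

lemma Rows.condExp_inn (R : Rows μ F h B lo hi) [IsProbabilityMeasure μ] (l : ℤ) (p : ℤ × ℤ) :
    μ[inn μ F h l p | F l] =ᵐ[μ] 0 := by
  have h1 := condExp_sub (μ := μ) ((R.bm p).integrable) (integrable_condExp (f := h p) (m := F l)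
    (μ := μ)) (F l)
  have h2 := condExp_of_stronglyMeasurable (μ := μ) (R.hF l)
    (stronglyMeasurable_condExp (f := h p) (m := F l) (μ := μ)) integrable_condExp
  have h3 : inn μ F h l p = h p - μ[h p | F l] := rfl
  rw [h3]
  filter_upwards [h1] with ω a
  rw [a, Pi.sub_apply, h2]
  simp

/-- An innovation is orthogonal to everything measurable before. -/
lemma Rows.int_inn_mul (R : Rows μ F h B lo hi) [IsProbabilityMeasure μ] (l : ℤ) (p : ℤ × ℤ)
    {Y : Ω → ℝ} (hY : MemLp Y 2 μ) (hYm : AEStronglyMeasurable[F l] Y μ) :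
    ∫ ω, inn μ F h l p ω * Y ω ∂μ = 0 := by
  have i1 : Integrable (fun ω => h p ω * Y ω) μ := ((R.bm p).memLp 2).integrable_mul hY
  have i2 : Integrable (fun ω => (μ[h p | F l]) ω * Y ω) μ :=
    (R.memLp_condExp l p).integrable_mul hY
  have e : (fun ω => inn μ F h l p ω * Y ω) =
      fun ω => h p ω * Y ω - (μ[h p | F l]) ω * Y ω := by
    funext ω
    simp only [inn]
    ring
  rw [e, integral_sub i1 i2, int_condExp_mul (R.hF l) (R.bm p) hY hYm]
  ring

/-- The covariance of innovations after the same row. -/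
noncomputable def cr (μ : Measure[mΩ] Ω) (h : ℤ × ℤ → Ω → ℝ) (l : ℤ) (p q : ℤ × ℤ) : ℝ :=
  (msd μ h p (rho l q) - msd μ h p q) / 2

/-- Mean square of the conditional expectation of an increment. -/
noncomputable def tr (μ : Measure[mΩ] Ω) (h : ℤ × ℤ → Ω → ℝ) (l : ℤ) (p π q π' : ℤ × ℤ) : ℝ :=
  (msd μ h p π' + msd μ h π (rho l q) - msd μ h p (rho l q) - msd μ h π π') / 2

lemma Rows.int_diff (R : Rows μ F h B lo hi) [IsProbabilityMeasure μ] (p π q π' : ℤ × ℤ) :
    ∫ ω, (h p ω - h π ω) * (h q ω - h π' ω) ∂μ =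
      (msd μ h p π' + msd μ h π q - msd μ h p q - msd μ h π π') / 2 := by
  have i1 := ((R.bm p).mul (R.bm q)).integrable (μ := μ)
  have i2 := ((R.bm p).mul (R.bm π')).integrable (μ := μ)
  have i3 := ((R.bm π).mul (R.bm q)).integrable (μ := μ)
  have i4 := ((R.bm π).mul (R.bm π')).integrable (μ := μ)
  have e : (fun ω => (h p ω - h π ω) * (h q ω - h π' ω)) = fun ω =>
      (h p ω * h q ω + (-1) * (h p ω * h π' ω) + (h π ω * h π' ω)) - h π ω * h q ω := by
    funext ω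
    ring
  rw [e, int4 i1 i2 i4 i3,
    R.int_mul p q, R.int_mul p π', R.int_mul π π', R.int_mul π q]
  ring

lemma Rows.int_proj (R : Rows μ F h B lo hi) [IsProbabilityMeasure μ] (l : ℤ) (p π q π' : ℤ × ℤ)
    (hp : Win lo hi l p) (hq : Win lo hi l q) (hπ : π.1 = l) (hπ' : π'.1 = l) :
    ∫ ω, ((μ[h p | F l]) ω - h π ω) * ((μ[h q | F l]) ω - h π' ω) ∂μ = tr μ h l p π q π' := by
  rw [R.refl l p q π π' hp hq hπ hπ', R.int_diff]
  rfl

lemma Rows.int_h_inn_zero (R : Rows μ F h B lo hi) [IsProbabilityMeasure μ] (l : ℤ) (w p : ℤ × ℤ)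
    (hw : w.1 ≤ l) : ∫ ω, h w ω * inn μ F h l p ω ∂μ = 0 := by
  have e : (fun ω => h w ω * inn μ F h l p ω) = fun ω => inn μ F h l p ω * h w ω := by
    funext ω
    ring
  rw [e]
  exact R.int_inn_mul l p ((R.bm w).memLp 2)
    ((R.meas w).mono (R.mono hw) le_rfl).stronglyMeasurable.aestronglyMeasurable

lemma Rows.int_h_inn (R : Rows μ F h B lo hi) [IsProbabilityMeasure μ] (l : ℤ) (w p : ℤ × ℤ)
    (hw : Win lo hi l w) (hp : Win lo hi l p) :
    ∫ ω, h w ω * inn μ F h l p ω ∂μ = cr μ h l w p := by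
  set π : ℤ × ℤ := (l, p.2) with hπ
  have bπ := (R.bm π).memLp (μ := μ) 2
  have bw := (R.bm w).memLp (μ := μ) 2
  have bp := (R.bm p).memLp (μ := μ) 2
  have hπm : AEStronglyMeasurable[F l] (h π) μ :=
    (R.meas π).stronglyMeasurable.aestronglyMeasurable
  have mI := R.memLp_inn l p
  have mE := R.memLp_condExp l p
  have mD : MemLp (fun ω => (μ[h p | F l]) ω - h π ω) 2 μ := mE.sub bπ
  have mDm : AEStronglyMeasurable[F l] (fun ω => (μ[h p | F l]) ω - h π ω) μ :=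
    stronglyMeasurable_condExp.aestronglyMeasurable.sub hπm
  have i1 : Integrable (fun ω => h w ω * inn μ F h l p ω) μ := bw.integrable_mul mI
  have i2 : Integrable (fun ω => h π ω * inn μ F h l p ω) μ := bπ.integrable_mul mI
  -- subtract the height in the row
  have e1 : ∫ ω, h w ω * inn μ F h l p ω ∂μ =
      ∫ ω, (h w ω - h π ω) * (h p ω - h π ω) ∂μ -
      ∫ ω, (h w ω - h π ω) * ((μ[h p | F l]) ω - h π ω) ∂μ := by
    have j1 : Integrable (fun ω => (h w ω - h π ω) * (h p ω - h π ω)) μ :=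
      (bw.sub bπ).integrable_mul (bp.sub bπ)
    have j2 : Integrable (fun ω => (h w ω - h π ω) * ((μ[h p | F l]) ω - h π ω)) μ :=
      (bw.sub bπ).integrable_mul mD
    rw [← integral_sub j1 j2]
    have z := R.int_h_inn_zero l π p (by simp [hπ])
    have e2 : ∫ ω, h w ω * inn μ F h l p ω ∂μ =
        ∫ ω, (h w ω * inn μ F h l p ω - h π ω * inn μ F h l p ω) ∂μ := by
      rw [integral_sub i1 i2, z, sub_zero]
    rw [e2]
    refine integral_congr_ae (ae_of_all _ fun ω => ?_)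
    simp only [inn]
    ring
  have e3 : ∫ ω, (h w ω - h π ω) * ((μ[h p | F l]) ω - h π ω) ∂μ = tr μ h l w π p π := by
    rw [← R.int_proj l w π p π hw hp rfl rfl]
    have k1 : Integrable (fun ω => h w ω * ((μ[h p | F l]) ω - h π ω)) μ := bw.integrable_mul mD
    have k2 : Integrable (fun ω => (μ[h w | F l]) ω * ((μ[h p | F l]) ω - h π ω)) μ :=
      (R.memLp_condExp l w).integrable_mul mD
    have k3 : Integrable (fun ω => h π ω * ((μ[h p | F l]) ω - h π ω)) μ := bπ.integrable_mul mD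
    have c := int_condExp_mul (μ := μ) (R.hF l) (R.bm w) mD mDm
    have f1 : (fun ω => (h w ω - h π ω) * ((μ[h p | F l]) ω - h π ω)) = fun ω =>
        h w ω * ((μ[h p | F l]) ω - h π ω) - h π ω * ((μ[h p | F l]) ω - h π ω) := by
      funext ω
      ring
    have f2 : (fun ω => ((μ[h w | F l]) ω - h π ω) * ((μ[h p | F l]) ω - h π ω)) = fun ω =>
        (μ[h w | F l]) ω * ((μ[h p | F l]) ω - h π ω) - h π ω * ((μ[h p | F l]) ω - h π ω) := by
      funext ω
      ring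
    rw [f1, f2, integral_sub k1 k3, integral_sub k2 k3, c]
  have hπw : Win lo hi l π := by
    obtain ⟨a, b, c⟩ := hp
    exact ⟨le_rfl, a.trans b, by simp only [hπ]; linarith⟩
  have hρ : rho l π = π := by
    ext
    · simp only [rho, hπ]
      ring
    · rfl
  have hv := R.inv l π p hπw hp
  rw [hρ] at hv
  have hππ : msd μ h π π = 0 := by simp [msd]
  rw [e1, e3, R.int_diff]
  unfold tr cr
  rw [hv]
  ring

lemma Rows.int_inn_inn (R : Rows μ F h B lo hi) [IsProbabilityMeasure μ] (l : ℤ) (p q : ℤ × ℤ)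
    (hp : Win lo hi l p) (hq : Win lo hi l q) :
    ∫ ω, inn μ F h l p ω * inn μ F h l q ω ∂μ = cr μ h l p q := by
  have i1 : Integrable (fun ω => h p ω * inn μ F h l q ω) μ :=
    ((R.bm p).memLp 2).integrable_mul (R.memLp_inn l q)
  have i2 : Integrable (fun ω => (μ[h p | F l]) ω * inn μ F h l q ω) μ :=
    (R.memLp_condExp l p).integrable_mul (R.memLp_inn l q)
  have e : (fun ω => inn μ F h l p ω * inn μ F h l q ω) =
      fun ω => h p ω * inn μ F h l q ω - (μ[h p | F l]) ω * inn μ F h l q ω := by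
    funext ω
    simp only [inn]
    ring
  have e2 : ∫ ω, (μ[h p | F l]) ω * inn μ F h l q ω ∂μ = 0 := by
    have e3 : (fun ω => (μ[h p | F l]) ω * inn μ F h l q ω) =
        fun ω => inn μ F h l q ω * (μ[h p | F l]) ω := by
      funext ω
      ring
    rw [e3]
    exact R.int_inn_mul l q (R.memLp_condExp l p)
      stronglyMeasurable_condExp.aestronglyMeasurable
  rw [e, integral_sub i1 i2, R.int_h_inn l p q hp hq, e2]
  ring

lemma Rows.int_inn_inn_ne (R : Rows μ F h B lo hi) [IsProbabilityMeasure μ] {l l' : ℤ} (p q : ℤ × ℤ)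
    (hp : p.1 ≤ l') (hl : l ≤ l') :
    ∫ ω, inn μ F h l p ω * inn μ F h l' q ω ∂μ = 0 := by
  have e : (fun ω => inn μ F h l p ω * inn μ F h l' q ω) =
      fun ω => inn μ F h l' q ω * inn μ F h l p ω := by
    funext ω
    ring
  rw [e]
  refine R.int_inn_mul l' q (R.memLp_inn l p) ?_
  have h1 : StronglyMeasurable[F l'] (h p) :=
    ((R.meas p).mono (R.mono hp) le_rfl).stronglyMeasurable
  have h2 : StronglyMeasurable[F l'] (μ[h p | F l]) :=
    stronglyMeasurable_condExp.mono (R.mono hl)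
  exact (h1.sub h2).aestronglyMeasurable

/-- The row model from the non-neutral identities. -/
theorem Rows.of_plain [IsProbabilityMeasure μ] (hF : ∀ l, F l ≤ mΩ) (mono : Monotone F)
    (meas : ∀ p, Measurable[F p.1] (h p)) (bm : ∀ p, BM (mΩ := mΩ) (h p))
    (refl : ∀ l p q, Win lo hi l p → Win lo hi l q →
      ∫ ω, (μ[h p | F l]) ω * (μ[h q | F l]) ω ∂μ = ∫ ω, h p ω * h (rho l q) ω ∂μ)
    (inv : ∀ l p q, Win lo hi l p → Win lo hi l q →
      ∫ ω, h (rho l p) ω * h (rho l q) ω ∂μ = ∫ ω, h p ω * h q ω ∂μ)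
    (np : ∀ l {ι : Type} [Fintype ι] (u : ι → ℤ × ℤ), lo ≤ l →
      (∀ i, l < (u i).1 ∧ (u i).1 ≤ hi) → NP μ (F l) (fun i => h (u i)))
    (lip : ∀ j x ω, lo ≤ j → j + 1 ≤ hi → |h (j + 1, x) ω - h (j, x) ω| ≤ B) :
    Rows μ F h B lo hi where
  hF := hF
  mono := mono
  meas := meas
  bm := bm
  np := np
  lip := lip
  inv := by
    intro l p q hp hq
    have e : ∀ p q : ℤ × ℤ, msd μ h p q =
        ∫ ω, h p ω * h p ω ∂μ + (-2) * ∫ ω, h p ω * h q ω ∂μ + ∫ ω, h q ω * h q ω ∂μ := by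
      intro p q
      have e1 : (fun ω => (h p ω - h q ω) ^ 2) =
          fun ω => h p ω * h p ω + (-2) * (h p ω * h q ω) + h q ω * h q ω := by
        funext ω
        ring
      unfold msd
      rw [e1]
      exact int3 ((bm p).mul (bm p)).integrable ((bm p).mul (bm q)).integrable
        ((bm q).mul (bm q)).integrable (-2)
    rw [e, e, inv l p p hp hp, inv l q q hq hq, inv l p q hp hq]
  refl := by
    intro l p q π π' hp hq hπ hπ'
    have mp : MemLp (μ[h p | F l]) 2 μ := ((bm p).memLp 2).condExp (by norm_num)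
    have mq : MemLp (μ[h q | F l]) 2 μ := ((bm q).memLp 2).condExp (by norm_num)
    have bπ := (bm π).memLp (μ := μ) 2
    have bπ' := (bm π').memLp (μ := μ) 2
    have hm : ∀ π : ℤ × ℤ, π.1 = l → AEStronglyMeasurable[F l] (h π) μ := by
      intro π hπ
      exact ((meas π).mono (mono hπ.le) le_rfl).stronglyMeasurable.aestronglyMeasurable
    have i1 : Integrable (fun ω => (μ[h p | F l]) ω * (μ[h q | F l]) ω) μ := mp.integrable_mul mq
    have i2 : Integrable (fun ω => (μ[h p | F l]) ω * h π' ω) μ := mp.integrable_mul bπ'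
    have i3 : Integrable (fun ω => (μ[h q | F l]) ω * h π ω) μ := mq.integrable_mul bπ
    have i4 : Integrable (fun ω => h π ω * h π' ω) μ := ((bm π).mul (bm π')).integrable
    have i5 : Integrable (fun ω => h p ω * h (rho l q) ω) μ :=
      ((bm p).mul (bm (rho l q))).integrable
    have i6 : Integrable (fun ω => h p ω * h π' ω) μ := ((bm p).mul (bm π')).integrable
    have i7 : Integrable (fun ω => h (rho l q) ω * h π ω) μ :=
      ((bm (rho l q)).mul (bm π)).integrable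
    have e : (fun ω => ((μ[h p | F l]) ω - h π ω) * ((μ[h q | F l]) ω - h π' ω)) = fun ω =>
        ((μ[h p | F l]) ω * (μ[h q | F l]) ω + (-1) * ((μ[h p | F l]) ω * h π' ω) +
          h π ω * h π' ω) - (μ[h q | F l]) ω * h π ω := by
      funext ω
      ring
    have e' : (fun ω => (h p ω - h π ω) * (h (rho l q) ω - h π' ω)) = fun ω =>
        (h p ω * h (rho l q) ω + (-1) * (h p ω * h π' ω) +
          h π ω * h π' ω) - h (rho l q) ω * h π ω := by
      funext ω
      ring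
    have e2 : ∫ ω, (μ[h p | F l]) ω * h π' ω ∂μ = ∫ ω, h p ω * h π' ω ∂μ :=
      int_condExp_mul (hF l) (bm p) bπ' (hm π' hπ')
    have e3 : ∫ ω, (μ[h q | F l]) ω * h π ω ∂μ = ∫ ω, h q ω * h π ω ∂μ :=
      int_condExp_mul (hF l) (bm q) bπ (hm π hπ)
    have hπw : Win lo hi l π := by
      obtain ⟨a, b, c⟩ := hp
      exact ⟨hπ.ge, by linarith, by linarith⟩
    have e4 : ∫ ω, h (rho l q) ω * h π ω ∂μ = ∫ ω, h q ω * h π ω ∂μ := by
      have h1 := inv l q π hq hπw
      have h2 : rho l π = π := by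
        ext
        · simp only [rho, hπ]
          ring
        · simp [rho]
      rwa [h2] at h1
    rw [e, e', int4 i1 i2 i4 i3, int4 i5 i6 i4 i7, e2, e3, e4, refl l p q hp hq]

end Vale.Agent.P153.Asm
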