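import Vale.Agent.P153.Asm.Box
import Vale.Agent.P153.TwoPt.Defs2

/-!
# Error terms of the plane inequality for the concrete boxes
-/

namespace Vale.Agent.P153.Asm

open MeasureTheory Filter Finset
open scoped Topology ENNReal
open Vale.Agent.P153.CLT

section geometry

variable (K : ℕ) (I0 : ℤ) (C : Finset ℤ) (l : ℕ)

lemma bgeo_inj : Function.Injective (bgeo K I0 C l).x := by
  rintro ⟨c, r⟩ ⟨c', r'⟩ h
  have h1 : (c : ℤ) * l + ((r : ℕ) : ℤ) = (c' : ℤ) * l + ((r' : ℕ) : ℤ) := h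
  have hr := r.2
  have hr' := r'.2
  have h2 : (c : ℤ) = c' := by
    have hl : (0 : ℤ) < l := by omega
    have e1 : ((c : ℤ) * l + ((r : ℕ) : ℤ)) / l = c := by
      rw [add_comm, Int.add_mul_ediv_right _ _ hl.ne', Int.ediv_eq_zero_of_lt (by omega) (by omega),
        zero_add]
    have e2 : ((c' : ℤ) * l + ((r' : ℕ) : ℤ)) / l = c' := by
      rw [add_comm, Int.add_mul_ediv_right _ _ hl.ne', Int.ediv_eq_zero_of_lt (by omega) (by omega),
        zero_add]
    rw [← e1, ← e2, h1]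
  have h3 : r = r' := by
    apply Fin.ext
    rw [h2] at h1
    omega
  exact Prod.ext (Subtype.ext h2) h3

variable {R : Type*} [AddCommMonoid R]

lemma sum_sT (F : ↥C × Fin l → R) (c : ↥C) :
    ∑ i ∈ sT (bgeo K I0 C l).b {c}, F i = ∑ r : Fin l, F (c, r) := by
  unfold sT
  rw [Finset.sum_filter, Fintype.sum_prod_type, Finset.sum_eq_single c]
  · refine Finset.sum_congr rfl fun r _ => ?_
    rw [if_pos]
    exact Finset.mem_singleton_self c
  · intro c' _ hc'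
    refine Finset.sum_eq_zero fun r _ => ?_
    rw [if_neg]
    exact fun h => hc' (Finset.mem_singleton.1 h)
  · intro h
    exact absurd (Finset.mem_univ _) h

lemma sum_block (F : ℤ → R) (c : ↥C) :
    ∑ r : Fin l, F ((c : ℤ) * l + ((r : ℕ) : ℤ)) =
      ∑ x ∈ Finset.Ico ((c : ℤ) * l) ((c : ℤ) * l + l), F x := by
  rw [← Finset.sum_range fun r : ℕ => F ((c : ℤ) * l + (r : ℤ))]
  refine Finset.sum_bij (fun (r : ℕ) _ => (c : ℤ) * l + (r : ℤ)) ?_ ?_ ?_ ?_
  · intro r hr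
    rw [Finset.mem_range] at hr
    rw [Finset.mem_Ico]
    omega
  · intro a _ b _ h
    omega
  · intro x hx
    rw [Finset.mem_Ico] at hx
    exact ⟨(x - (c : ℤ) * l).toNat, by rw [Finset.mem_range]; omega, by omega⟩
  · intro r _
    rfl

lemma sum_steps (F : ℤ → R) (J : ℕ) :
    ∑ j ∈ Finset.range J, F (I0 + j) = ∑ i ∈ Finset.Ico I0 (I0 + J), F i := by
  refine Finset.sum_bij (fun (j : ℕ) _ => I0 + (j : ℤ)) ?_ ?_ ?_ ?_
  · intro r hr
    rw [Finset.mem_range] at hr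
    rw [Finset.mem_Ico]
    omega
  · intro a _ b _ h
    omega
  · intro x hx
    rw [Finset.mem_Ico] at hx
    exact ⟨(x - I0).toNat, by rw [Finset.mem_range]; omega, by omega⟩
  · intro r _
    rfl

end geometry

/-- **(i)** the deviation of the local squares in orthogonal coordinates. -/
theorem dev_eq {Ω : Type*} [mΩ : MeasurableSpace Ω] (P : Measure Ω) (h : ℤ × ℤ → Ω → ℝ)
    (g : ℝ × ℝ → ℝ) (L : ℝ) (K : ℕ) (I0 : ℤ) (C : Finset ℤ) (l J : ℕ) (s : ℝ) :
    dev P h (bgeo K I0 C l) (bwt g L K I0 C l) J s =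
      ∫ ω, |∑ i ∈ Finset.Ico I0 (I0 + J), ∑ c ∈ C,
        (∑ x ∈ Finset.Ico (c * l) (c * l + l), (L⁻¹ * g ((i : ℝ) * K / L, (x : ℝ) / L)) *
          (h ((i + 1) * K, x) ω - h (i * K, x) ω)) ^ 2 - s| ∂P := by
  unfold dev
  congr 1
  funext ω
  congr 2
  rw [← sum_steps I0 (fun i : ℤ => ∑ c ∈ C,
        (∑ x ∈ Finset.Ico (c * (l : ℤ)) (c * l + l), (L⁻¹ * g ((i : ℝ) * K / L, (x : ℝ) / L)) *
          (h ((i + 1) * K, x) ω - h (i * K, x) ω)) ^ 2) J]
  refine Finset.sum_congr rfl fun j _ => ?_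
  rw [← Finset.sum_coe_sort C fun c : ℤ =>
    (∑ x ∈ Finset.Ico (c * (l : ℤ)) (c * l + l), (L⁻¹ * g (((I0 + j : ℤ) : ℝ) * K / L,
      (x : ℝ) / L)) * (h ((I0 + j + 1) * K, x) ω - h ((I0 + j) * K, x) ω)) ^ 2]
  refine Finset.sum_congr rfl fun c _ => ?_
  congr 1
  unfold yloc
  rw [sum_sT, ← sum_block C l (fun x : ℤ => (L⁻¹ * g (((I0 + j : ℤ) : ℝ) * K / L,
      (x : ℝ) / L)) * (h ((I0 + j + 1) * K, x) ω - h ((I0 + j) * K, x) ω)) c]
  refine Finset.sum_congr rfl fun r _ => ?_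
  unfold bwt bgeo Geo.site Geo.base Geo.l
  push_cast
  rw [← add_assoc]

section kernels

variable (V : ℤ → ℤ → ℝ) (K : ℕ) (I0 : ℤ) (C : Finset ℤ) (l : ℕ)

lemma crV_eq (j : ℕ) (i i' : ↥C × Fin l) :
    crV (tV V) ((bgeo K I0 C l).l j) ((bgeo K I0 C l).site j i) ((bgeo K I0 C l).site j i') =
      TwoPt.CK V K ((bgeo K I0 C l).x i - (bgeo K I0 C l).x i') := by
  unfold crV tV rho TwoPt.CK Geo.site
  simp only
  rw [Geo.l_succ]
  have e1 : (bgeo K I0 C l).l j + ((bgeo K I0 C l).K : ℤ) - (2 * (bgeo K I0 C l).l j -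
      ((bgeo K I0 C l).l j + ((bgeo K I0 C l).K : ℤ))) = 2 * K := by
    change (bgeo K I0 C l).l j + (K : ℤ) - (2 * (bgeo K I0 C l).l j -
      ((bgeo K I0 C l).l j + (K : ℤ))) = 2 * K
    ring
  rw [e1, sub_self]

lemma trV_eq (j : ℕ) (i i' : ↥C × Fin l) :
    trV (tV V) ((bgeo K I0 C l).l j) ((bgeo K I0 C l).site j i) ((bgeo K I0 C l).base j i)
      ((bgeo K I0 C l).site j i') ((bgeo K I0 C l).base j i') =
      TwoPt.TK V K ((bgeo K I0 C l).x i - (bgeo K I0 C l).x i') := by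
  unfold trV tV rho TwoPt.TK Geo.site Geo.base
  simp only
  rw [Geo.l_succ]
  have e1 : (bgeo K I0 C l).l j + ((bgeo K I0 C l).K : ℤ) - (2 * (bgeo K I0 C l).l j -
      ((bgeo K I0 C l).l j + ((bgeo K I0 C l).K : ℤ))) = 2 * K := by
    change (bgeo K I0 C l).l j + (K : ℤ) - (2 * (bgeo K I0 C l).l j -
      ((bgeo K I0 C l).l j + (K : ℤ))) = 2 * K
    ring
  have e2 : (bgeo K I0 C l).l j - (2 * (bgeo K I0 C l).l j -
      ((bgeo K I0 C l).l j + ((bgeo K I0 C l).K : ℤ))) = K := by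
    change (bgeo K I0 C l).l j - (2 * (bgeo K I0 C l).l j -
      ((bgeo K I0 C l).l j + (K : ℤ))) = K
    ring
  have e3 : (bgeo K I0 C l).l j + ((bgeo K I0 C l).K : ℤ) - (bgeo K I0 C l).l j = K := by
    change (bgeo K I0 C l).l j + (K : ℤ) - (bgeo K I0 C l).l j = K
    ring
  rw [e1, e2, e3, sub_self]
  ring

lemma ddV_eq (hV : ∀ z, V (-(K : ℤ)) z = V K z) (j : ℕ) (i i' : ↥C × Fin l) :
    ddV (tV V) ((bgeo K I0 C l).site j i) ((bgeo K I0 C l).base j i)
      ((bgeo K I0 C l).site j i') ((bgeo K I0 C l).base j i') =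
      TwoPt.CK V K ((bgeo K I0 C l).x i - (bgeo K I0 C l).x i') +
      TwoPt.TK V K ((bgeo K I0 C l).x i - (bgeo K I0 C l).x i') := by
  unfold ddV tV TwoPt.TK TwoPt.CK Geo.site Geo.base
  simp only
  rw [Geo.l_succ]
  have e3 : (bgeo K I0 C l).l j + ((bgeo K I0 C l).K : ℤ) - (bgeo K I0 C l).l j = K := by
    change (bgeo K I0 C l).l j + (K : ℤ) - (bgeo K I0 C l).l j = K
    ring
  have e4 : (bgeo K I0 C l).l j - ((bgeo K I0 C l).l j + ((bgeo K I0 C l).K : ℤ)) = -(K : ℤ) := by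
    change (bgeo K I0 C l).l j - ((bgeo K I0 C l).l j + (K : ℤ)) = -(K : ℤ)
    ring
  rw [e3, e4, sub_self, sub_self, hV]
  ring

end kernels

section bounds

variable {V : ℤ → ℤ → ℝ} {K : ℕ} {g : ℝ × ℝ → ℝ} {Gm : ℝ} {L : ℝ}

lemma abs_bwt (hL : 0 < L) (hg : ∀ z, |g z| ≤ Gm) (I0 : ℤ) (C : Finset ℤ) (l j : ℕ)
    (i : ↥C × Fin l) : |bwt g L K I0 C l j i| ≤ Gm / L := by
  unfold bwt
  rw [abs_mul, abs_of_pos (inv_pos.2 hL), div_eq_inv_mul Gm L]
  exact mul_le_mul_of_nonneg_left (hg _) (inv_pos.2 hL).le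

lemma x_sub_same (I0 : ℤ) (C : Finset ℤ) (l : ℕ) (c : ↥C) (r r' : Fin l) :
    (bgeo K I0 C l).x (c, r) - (bgeo K I0 C l).x (c, r') =
      ((r : ℕ) : ℤ) - ((r' : ℕ) : ℤ) := by
  change ((c : ℤ) * l + ((r : ℕ) : ℤ)) - ((c : ℤ) * l + ((r' : ℕ) : ℤ)) = _
  ring

lemma sum_le_tsum_x {f : ℤ → ℝ} (hf : ∀ z, 0 ≤ f z) (hs : Summable f) (I0 : ℤ) (C : Finset ℤ)
    (l : ℕ) (z : ℤ) : ∑ i' : ↥C × Fin l, f (z - (bgeo K I0 C l).x i') ≤ ∑' y, f y := by
  classical
  have e : ∑ i' : ↥C × Fin l, f (z - (bgeo K I0 C l).x i') =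
      ∑ y ∈ Finset.univ.image (fun i' : ↥C × Fin l => z - (bgeo K I0 C l).x i'), f y := by
    rw [Finset.sum_image]
    intro a _ b _ h
    exact bgeo_inj K I0 C l (by simpa using h)
  rw [e]
  exact hs.sum_le_tsum _ fun y _ => hf y

/-- **(ii)** -/
theorem vcross_le (hf : ∀ z, 0 ≤ TwoPt.CK V K z) (hs : Summable (TwoPt.CK V K)) (hL : 0 < L)
    (hg : ∀ z, |g z| ≤ Gm) (I0 : ℤ) (C : Finset ℤ) (l J : ℕ) :
    vcross (tV V) (bgeo K I0 C l) (bwt g L K I0 C l) J ≤
      J * C.card * (Gm / L) ^ 2 * (l * ∑' z, TwoPt.CK V K z -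
        ∑ x ∈ range l, ∑ y ∈ range l, TwoPt.CK V K ((x : ℤ) - y)) := by
  have hGm : 0 ≤ Gm / L := div_nonneg ((abs_nonneg _).trans (hg 0)) hL.le
  set S := ∑' z, TwoPt.CK V K z with hS
  have h1 : ∀ j ∈ range J, ∑ i : ↥C × Fin l, ∑ i' : ↥C × Fin l,
      (if (bgeo K I0 C l).b i = (bgeo K I0 C l).b i' then 0 else
        |bwt g L K I0 C l j i| * |bwt g L K I0 C l j i'| *
        crV (tV V) ((bgeo K I0 C l).l j) ((bgeo K I0 C l).site j i)
          ((bgeo K I0 C l).site j i')) ≤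
      C.card * ((Gm / L) ^ 2 * (l * S -
        ∑ x ∈ range l, ∑ y ∈ range l, TwoPt.CK V K ((x : ℤ) - y))) := by
    intro j _
    rw [Fintype.sum_prod_type]
    have h2 : ∀ c ∈ (Finset.univ : Finset ↥C), ∑ r : Fin l, ∑ i' : ↥C × Fin l,
      (if (bgeo K I0 C l).b (c, r) = (bgeo K I0 C l).b i' then 0 else
        |bwt g L K I0 C l j (c, r)| * |bwt g L K I0 C l j i'| *
        crV (tV V) ((bgeo K I0 C l).l j) ((bgeo K I0 C l).site j (c, r))
          ((bgeo K I0 C l).site j i')) ≤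
        (Gm / L) ^ 2 * (l * S -
        ∑ x ∈ range l, ∑ y ∈ range l, TwoPt.CK V K ((x : ℤ) - y)) := by
      intro c _
      have h3 : ∀ r ∈ (Finset.univ : Finset (Fin l)), ∑ i' : ↥C × Fin l,
          (if (bgeo K I0 C l).b (c, r) = (bgeo K I0 C l).b i' then 0 else
          |bwt g L K I0 C l j (c, r)| * |bwt g L K I0 C l j i'| *
          crV (tV V) ((bgeo K I0 C l).l j) ((bgeo K I0 C l).site j (c, r))
          ((bgeo K I0 C l).site j i')) ≤ (Gm / L) ^ 2 * (S -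
          ∑ r' : Fin l, TwoPt.CK V K (((r : ℕ) : ℤ) - ((r' : ℕ) : ℤ))) := by
        intro r _
        have h4 : ∑ i' : ↥C × Fin l,
          (if (bgeo K I0 C l).b (c, r) = (bgeo K I0 C l).b i' then 0 else
          |bwt g L K I0 C l j (c, r)| * |bwt g L K I0 C l j i'| *
          crV (tV V) ((bgeo K I0 C l).l j) ((bgeo K I0 C l).site j (c, r))
          ((bgeo K I0 C l).site j i')) ≤ (Gm / L) ^ 2 * ∑ i' : ↥C × Fin l,
          (if (bgeo K I0 C l).b (c, r) = (bgeo K I0 C l).b i' then 0 else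
          TwoPt.CK V K ((bgeo K I0 C l).x (c, r) - (bgeo K I0 C l).x i')) := by
          rw [Finset.mul_sum]
          refine Finset.sum_le_sum fun i' _ => ?_
          split_ifs
          · simp
          · rw [crV_eq]
            refine mul_le_mul_of_nonneg_right ?_ (hf _)
            rw [sq]
            exact mul_le_mul (abs_bwt hL hg I0 C l j _) (abs_bwt hL hg I0 C l j _)
              (abs_nonneg _) hGm
        refine h4.trans (mul_le_mul_of_nonneg_left ?_ (sq_nonneg _))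
        have h5 := sum_le_tsum_x (K := K) hf hs I0 C l ((bgeo K I0 C l).x (c, r))
        have h6 : ∑ r' : Fin l, TwoPt.CK V K (((r : ℕ) : ℤ) - ((r' : ℕ) : ℤ)) =
            ∑ i' : ↥C × Fin l, (if (bgeo K I0 C l).b (c, r) = (bgeo K I0 C l).b i' then
              TwoPt.CK V K ((bgeo K I0 C l).x (c, r) - (bgeo K I0 C l).x i') else 0) := by
          rw [Fintype.sum_prod_type, Finset.sum_eq_single c]
          · refine Finset.sum_congr rfl fun r' _ => ?_
            rw [if_pos (show (bgeo K I0 C l).b (c, r) = (bgeo K I0 C l).b (c, r') from rfl),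
              x_sub_same]
          · intro c' _ hc'
            refine Finset.sum_eq_zero fun r' _ => ?_
            rw [if_neg]
            exact fun h => hc' h.symm
          · intro h
            exact absurd (Finset.mem_univ _) h
        rw [h6, le_sub_iff_add_le, ← Finset.sum_add_distrib]
        refine le_trans (le_of_eq ?_) h5
        refine Finset.sum_congr rfl fun i' _ => ?_
        split_ifs <;> simp
      refine (Finset.sum_le_sum h3).trans (le_of_eq ?_)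
      rw [← Finset.mul_sum, Finset.sum_sub_distrib, Finset.sum_const, Finset.card_univ,
        Fintype.card_fin, nsmul_eq_mul,
        Finset.sum_range fun x : ℕ => ∑ y ∈ range l, TwoPt.CK V K ((x : ℤ) - y)]
      congr 2
      refine Finset.sum_congr rfl fun r _ => ?_
      rw [Finset.sum_range fun y : ℕ => TwoPt.CK V K (((r : ℕ) : ℤ) - y)]
    refine (Finset.sum_le_sum h2).trans (le_of_eq ?_)
    rw [Finset.sum_const, Finset.card_univ, Fintype.card_coe, nsmul_eq_mul]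
  unfold vcross
  refine (Finset.sum_le_sum h1).trans (le_of_eq ?_)
  rw [Finset.sum_const, Finset.card_range, nsmul_eq_mul]
  ring

/-- **(iii)** -/
theorem vsq_le (hf : ∀ z, 0 ≤ TwoPt.CK V K z) (hs : Summable (TwoPt.CK V K)) (hL : 0 < L)
    (hg : ∀ z, |g z| ≤ Gm) (I0 : ℤ) (C : Finset ℤ) (l J : ℕ) :
    vsq (tV V) (bgeo K I0 C l) (bwt g L K I0 C l) J ≤
      J * C.card * (Gm / L) ^ 2 * (l * ∑' z, TwoPt.CK V K z) := by
  have hGm : 0 ≤ Gm / L := div_nonneg ((abs_nonneg _).trans (hg 0)) hL.le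
  set S := ∑' z, TwoPt.CK V K z with hS
  have h1 : ∀ j ∈ range J, ∀ c ∈ (Finset.univ : Finset ↥C),
      ∑ i ∈ sT (bgeo K I0 C l).b {c}, ∑ i' ∈ sT (bgeo K I0 C l).b {c},
        bwt g L K I0 C l j i * bwt g L K I0 C l j i' *
        crV (tV V) ((bgeo K I0 C l).l j) ((bgeo K I0 C l).site j i)
          ((bgeo K I0 C l).site j i') ≤ (Gm / L) ^ 2 * (l * S) := by
    intro j _ c _
    rw [sum_sT]
    have h2 : ∀ r ∈ (Finset.univ : Finset (Fin l)), ∑ i' ∈ sT (bgeo K I0 C l).b {c},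
        bwt g L K I0 C l j (c, r) * bwt g L K I0 C l j i' *
        crV (tV V) ((bgeo K I0 C l).l j) ((bgeo K I0 C l).site j (c, r))
          ((bgeo K I0 C l).site j i') ≤ (Gm / L) ^ 2 * S := by
      intro r _
      have h3 : ∑ i' ∈ sT (bgeo K I0 C l).b {c},
        bwt g L K I0 C l j (c, r) * bwt g L K I0 C l j i' *
        crV (tV V) ((bgeo K I0 C l).l j) ((bgeo K I0 C l).site j (c, r))
          ((bgeo K I0 C l).site j i') ≤ ∑ i' : ↥C × Fin l,
          (Gm / L) ^ 2 * TwoPt.CK V K ((bgeo K I0 C l).x (c, r) - (bgeo K I0 C l).x i') := by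
        refine (Finset.sum_le_sum (g := fun i' => (Gm / L) ^ 2 *
          TwoPt.CK V K ((bgeo K I0 C l).x (c, r) - (bgeo K I0 C l).x i')) fun i' _ => ?_).trans
          (Finset.sum_le_sum_of_subset_of_nonneg (Finset.subset_univ _) fun i' _ _ =>
            mul_nonneg (sq_nonneg _) (hf _))
        rw [crV_eq]
        refine mul_le_mul_of_nonneg_right ?_ (hf _)
        rw [sq]
        refine (le_abs_self _).trans ?_
        rw [abs_mul]
        exact mul_le_mul (abs_bwt hL hg I0 C l j _) (abs_bwt hL hg I0 C l j _)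
          (abs_nonneg _) hGm
      refine h3.trans ?_
      rw [← Finset.mul_sum]
      exact mul_le_mul_of_nonneg_left
        (sum_le_tsum_x (K := K) hf hs I0 C l ((bgeo K I0 C l).x (c, r))) (sq_nonneg _)
    refine (Finset.sum_le_sum h2).trans (le_of_eq ?_)
    rw [Finset.sum_const, Finset.card_univ, Fintype.card_fin, nsmul_eq_mul]
    ring
  unfold vsq
  refine (Finset.sum_le_sum fun j hj => Finset.sum_le_sum fun c hc => h1 j hj c hc).trans
    (le_of_eq ?_)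
  rw [Finset.sum_const, Finset.sum_const, Finset.card_univ, Fintype.card_coe, Finset.card_range,
    nsmul_eq_mul, nsmul_eq_mul]
  ring

/-- **(iv)** -/
theorem vdel_le (hL : 0 < L) (hg : ∀ z, |g z| ≤ Gm) (I0 : ℤ) (C : Finset ℤ) (l J : ℕ)
    {om Ti E : ℝ} (hE : 0 ≤ E)
    (hom : ∀ j ∈ range J, ∀ i : ↥C × Fin l, |bwt g L K I0 C l j i -
      L⁻¹ * g (((I0 + j : ℤ) : ℝ) * K / L, ((i.1 : ℤ) : ℝ) * l / L)| ≤ om / L)
    (hTi : ∀ z : ℤ, |z| < l → |TwoPt.TK V K z| ≤ Ti)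
    (hTE : ∑ x ∈ range l, ∑ y ∈ range l, TwoPt.TK V K ((x : ℤ) - y) ≤ E) :
    vdel (tV V) (bgeo K I0 C l) (bwt g L K I0 C l) J ≤
      J * C.card * ((Gm / L) ^ 2 * E + 2 * (Gm / L) * (om / L) * l ^ 2 * Ti) := by
  have hGm : 0 ≤ Gm / L := div_nonneg ((abs_nonneg _).trans (hg 0)) hL.le
  have h1 : ∀ j ∈ range J, ∀ c ∈ (Finset.univ : Finset ↥C),
      ∑ i ∈ sT (bgeo K I0 C l).b {c}, ∑ i' ∈ sT (bgeo K I0 C l).b {c},
        bwt g L K I0 C l j i * bwt g L K I0 C l j i' *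
        trV (tV V) ((bgeo K I0 C l).l j) ((bgeo K I0 C l).site j i) ((bgeo K I0 C l).base j i)
          ((bgeo K I0 C l).site j i') ((bgeo K I0 C l).base j i') ≤
      (Gm / L) ^ 2 * E + 2 * (Gm / L) * (om / L) * l ^ 2 * Ti := by
    intro j hj c _
    set q : ℝ := L⁻¹ * g (((I0 + j : ℤ) : ℝ) * K / L, ((c : ℤ) : ℝ) * l / L) with hq
    have hqb : |q| ≤ Gm / L := by
      rw [hq, abs_mul, abs_of_pos (inv_pos.2 hL), div_eq_inv_mul Gm L]
      exact mul_le_mul_of_nonneg_left (hg _) (inv_pos.2 hL).le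
    rw [sum_sT]
    have h2 : ∀ r ∈ (Finset.univ : Finset (Fin l)), ∑ i' ∈ sT (bgeo K I0 C l).b {c},
        bwt g L K I0 C l j (c, r) * bwt g L K I0 C l j i' *
        trV (tV V) ((bgeo K I0 C l).l j) ((bgeo K I0 C l).site j (c, r))
          ((bgeo K I0 C l).base j (c, r))
          ((bgeo K I0 C l).site j i') ((bgeo K I0 C l).base j i') ≤
        ∑ r' : Fin l, (q ^ 2 * TwoPt.TK V K (((r : ℕ) : ℤ) - ((r' : ℕ) : ℤ)) +
          2 * (Gm / L) * (om / L) * Ti) := by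
      intro r _
      rw [sum_sT]
      refine Finset.sum_le_sum fun r' _ => ?_
      rw [trV_eq, x_sub_same]
      have hT := hTi (((r : ℕ) : ℤ) - ((r' : ℕ) : ℤ)) (by
        have := r.2
        have := r'.2
        rw [abs_lt]
        constructor <;> omega)
      set T := TwoPt.TK V K (((r : ℕ) : ℤ) - ((r' : ℕ) : ℤ))
      set a := bwt g L K I0 C l j (c, r)
      set b := bwt g L K I0 C l j (c, r')
      have ha : |a - q| ≤ om / L := hom j hj (c, r)
      have hb : |b - q| ≤ om / L := hom j hj (c, r')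
      have hb2 : |b| ≤ Gm / L := abs_bwt hL hg I0 C l j _
      have hom0 : 0 ≤ om / L := (abs_nonneg _).trans ha
      have e : a * b * T = q ^ 2 * T + ((a - q) * b + q * (b - q)) * T := by ring
      rw [e]
      refine add_le_add le_rfl ?_
      have h3 : |(a - q) * b + q * (b - q)| ≤ 2 * (Gm / L) * (om / L) := by
        refine (abs_add_le _ _).trans ?_
        rw [abs_mul, abs_mul]
        have h4 : |a - q| * |b| ≤ (om / L) * (Gm / L) := mul_le_mul ha hb2 (abs_nonneg _) hom0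
        have h5 : |q| * |b - q| ≤ (Gm / L) * (om / L) := mul_le_mul hqb hb (abs_nonneg _) hGm
        linarith
      calc ((a - q) * b + q * (b - q)) * T ≤ |((a - q) * b + q * (b - q)) * T| := le_abs_self _
        _ = |(a - q) * b + q * (b - q)| * |T| := abs_mul _ _
        _ ≤ 2 * (Gm / L) * (om / L) * Ti := mul_le_mul h3 hT (abs_nonneg _) (by positivity)
    refine (Finset.sum_le_sum h2).trans ?_
    have h6 : ∑ r : Fin l, ∑ r' : Fin l, (q ^ 2 * TwoPt.TK V K (((r : ℕ) : ℤ) - ((r' : ℕ) : ℤ)) +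
          2 * (Gm / L) * (om / L) * Ti) =
        q ^ 2 * ∑ x ∈ range l, ∑ y ∈ range l, TwoPt.TK V K ((x : ℤ) - y) +
          2 * (Gm / L) * (om / L) * l ^ 2 * Ti := by
      simp only [Finset.sum_add_distrib]
      rw [Finset.sum_const, Finset.sum_const, Finset.card_univ, Fintype.card_fin, nsmul_eq_mul,
        nsmul_eq_mul]
      have h7 : ∑ r : Fin l, ∑ r' : Fin l, q ^ 2 * TwoPt.TK V K (((r : ℕ) : ℤ) - ((r' : ℕ) : ℤ)) =
          q ^ 2 * ∑ x ∈ range l, ∑ y ∈ range l, TwoPt.TK V K ((x : ℤ) - y) := by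
        rw [Finset.sum_range fun x : ℕ => ∑ y ∈ range l, TwoPt.TK V K ((x : ℤ) - y),
          Finset.mul_sum]
        refine Finset.sum_congr rfl fun r _ => ?_
        rw [Finset.sum_range fun y : ℕ => TwoPt.TK V K (((r : ℕ) : ℤ) - y), Finset.mul_sum]
      rw [h7]
      ring
    rw [h6]
    refine add_le_add ?_ le_rfl
    have hq2 : q ^ 2 ≤ (Gm / L) ^ 2 := by
      rw [← sq_abs]
      exact pow_le_pow_left₀ (abs_nonneg _) hqb 2
    calc q ^ 2 * ∑ x ∈ range l, ∑ y ∈ range l, TwoPt.TK V K ((x : ℤ) - y)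
        ≤ q ^ 2 * E := mul_le_mul_of_nonneg_left hTE (sq_nonneg _)
      _ ≤ (Gm / L) ^ 2 * E := mul_le_mul_of_nonneg_right hq2 hE
  unfold vdel
  refine (Finset.sum_le_sum fun j hj => Finset.sum_le_sum fun c hc => h1 j hj c hc).trans
    (le_of_eq ?_)
  rw [Finset.sum_const, Finset.sum_const, Finset.card_univ, Fintype.card_coe, Finset.card_range,
    nsmul_eq_mul, nsmul_eq_mul]
  ring

/-- **(v)** -/
theorem vloc_eq (hV : ∀ z, V (-(K : ℤ)) z = V K z) (I0 : ℤ) (C : Finset ℤ) (l J : ℕ)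
    (w : ℕ → ↥C × Fin l → ℝ) :
    vloc (tV V) (bgeo K I0 C l) w J =
      vsq (tV V) (bgeo K I0 C l) w J + vdel (tV V) (bgeo K I0 C l) w J := by
  unfold vloc vsq vdel
  simp only [← Finset.sum_add_distrib]
  refine Finset.sum_congr rfl fun j _ => Finset.sum_congr rfl fun c _ =>
    Finset.sum_congr rfl fun i _ => Finset.sum_congr rfl fun i' _ => ?_
  rw [ddV_eq V K I0 C l hV, crV_eq, trV_eq]
  ring

end bounds

end Vale.Agent.P153.Asm
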