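import Vale.Agent.P153.Asm.Small
import Vale.Agent.P153.Asm.Pos
import Vale.Agent.P153.CLT.PlaneVar

/-!
# Statements of the last two steps of the row central limit theorem
-/

namespace Vale.Agent.P153.Asm

open MeasureTheory Filter Finset
open scoped Topology
open Vale.Agent.P153.CLT Vale.Agent.P153.TwoPt

/-- The limit of the plane inequality for fixed `g`, `K`, `l`. -/
def Meso (P : Measure (ℤ × ℤ → ℤ)) (c κ : ℝ) : Prop :=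
  ∀ (f : ℝ × ℝ → ℝ) (L : ℕ → ℝ) (a : ℕ → ℤ → ℤ → ℝ) (M : ℝ), TwoPt.Disc f L a M →
  ∀ g : ℝ × ℝ → ℝ, Continuous g → HasCompactSupport g →
  ∃ q : ℝ, 0 ≤ q ∧ ∀ K l : ℕ, 0 < K → 0 < l → ∀ t E ρ : ℝ, 0 < t → 0 ≤ E → 0 < ρ →
    ∑ x ∈ range l, ∑ y ∈ range l, TK (GFF.Vrow P) K ((x : ℤ) - y) ≤ E →
    ∀ᶠ n in atTop, ‖∫ φ, ei (∑ᶠ p : ℤ × ℤ, a n p.1 p.2 * hev p φ) ∂P -
      ((Real.exp (-(wKl P K l / (K * l) * ∫ z, g z ^ 2) / 2) : ℝ) : ℂ)‖ ≤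
      Real.sqrt (sig c κ f - 2 * cov c κ g f +
        (∑' z, CK (GFF.Vrow P) K z) / K * ∫ z, g z ^ 2) +
      8 * (q / K) * (∑' z, CK (GFF.Vrow P) K z -
        1 / (l : ℝ) * ∑ x ∈ range l, ∑ y ∈ range l, CK (GFF.Vrow P) K ((x : ℤ) - y)) +
      (wKl P K l / (K * l) * (∫ z, g z ^ 2) + 4) * (t * (q / K * ∑' z, CK (GFF.Vrow P) K z) +
        (1 + 1 / t + t) * (q * (E / (K * l)))) + ρ

/-- The limiting variances are close. -/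
def CloseVar (P : Measure (ℤ × ℤ → ℤ)) (c κ : ℝ) : Prop :=
  ∀ (f : ℝ × ℝ → ℝ) (L : ℕ → ℝ) (a : ℕ → ℤ → ℤ → ℝ) (M : ℝ), TwoPt.Disc f L a M →
  ∀ g : ℝ × ℝ → ℝ, Continuous g → HasCompactSupport g → ∀ K : ℕ, 0 < K →
    0 ≤ sig c κ f ∧ 0 ≤ (∑' z, CK (GFF.Vrow P) K z) / K * ∫ z, g z ^ 2 ∧
    (cov c κ g f) ^ 2 ≤ sig c κ f * ((∑' z, CK (GFF.Vrow P) K z) / K * ∫ z, g z ^ 2)

end Vale.Agent.P153.Asm
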