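import Vale.Agent.P153.Asm.Rows

/-!
# The strip inequality

For the abstract row model the characteristic function of a neutral linear functional is compared
with a Gaussian one; the error is expressed with mean square differences and local functions.
-/

namespace Vale.Agent.P153.Asm

open MeasureTheory Filter Finset
open scoped Topology ENNReal
open Vale.Agent.P153.CLT

variable {Ω : Type*} {mΩ : MeasurableSpace Ω} {μ : Measure Ω}

lemma int_sum_mul_sum [IsProbabilityMeasure μ] {κ κ' : Type*} (s : Finset κ) (t : Finset κ')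
    (a : κ → ℝ) (b : κ' → ℝ) (U : κ → Ω → ℝ) (V : κ' → Ω → ℝ) (hU : ∀ k ∈ s, MemLp (U k) 2 μ)
    (hV : ∀ k ∈ t, MemLp (V k) 2 μ) :
    ∫ ω, (∑ k ∈ s, a k * U k ω) * (∑ k ∈ t, b k * V k ω) ∂μ =
      ∑ k ∈ s, ∑ k' ∈ t, a k * b k' * ∫ ω, U k ω * V k' ω ∂μ := by
  have e : (fun ω => (∑ k ∈ s, a k * U k ω) * (∑ k ∈ t, b k * V k ω)) = fun ω =>
      ∑ k ∈ s, ∑ k' ∈ t, a k * b k' * (U k ω * V k' ω) := by
    funext ω
    rw [Finset.sum_mul_sum]
    refine Finset.sum_congr rfl fun i _ => Finset.sum_congr rfl fun j _ => ?_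
    ring
  have hi : ∀ k ∈ s, ∀ k' ∈ t, Integrable (fun ω => a k * b k' * (U k ω * V k' ω)) μ :=
    fun k hk k' hk' => ((hU k hk).integrable_mul (hV k' hk')).const_mul _
  rw [e, integral_finsetSum _ fun k hk => integrable_finsetSum _ fun k' hk' => hi k hk k' hk']
  refine Finset.sum_congr rfl fun k hk => ?_
  rw [integral_finsetSum _ fun k' hk' => hi k hk k' hk']
  refine Finset.sum_congr rfl fun k' _ => ?_
  rw [integral_const_mul]

variable {ι β : Type} [Fintype ι] [Fintype β] [DecidableEq β]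

/-- Geometry of the mesoscopic rows. -/
structure Geo (ι β : Type) where
  /-- number of rows in one step -/
  K : ℕ
  /-- first step -/
  I0 : ℤ
  /-- positions -/
  x : ι → ℤ
  /-- blocks -/
  b : ι → β

/-- Row at which step `j` starts. -/
def Geo.l (G : Geo ι β) (j : ℕ) : ℤ := (G.I0 + j) * G.K

/-- Site at the end of step `j`. -/
def Geo.site (G : Geo ι β) (j : ℕ) (i : ι) : ℤ × ℤ := (G.l (j + 1), G.x i)

/-- Site at the beginning of step `j`. -/
def Geo.base (G : Geo ι β) (j : ℕ) (i : ι) : ℤ × ℤ := (G.l j, G.x i)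

omit [Fintype ι] [Fintype β] [DecidableEq β] in
lemma Geo.l_succ (G : Geo ι β) (j : ℕ) : G.l (j + 1) = G.l j + G.K := by
  unfold Geo.l
  push_cast
  ring

omit [Fintype ι] [Fintype β] [DecidableEq β] in
lemma Geo.l_mono (G : Geo ι β) : Monotone G.l := by
  refine monotone_nat_of_le_succ fun j => ?_
  rw [G.l_succ]
  have : (0 : ℤ) ≤ G.K := Int.natCast_nonneg _
  linarith

/-- The steps `0, ..., J - 1` are inside the window, `T` is the highest row. -/
structure Geo.In (G : Geo ι β) (lo hi : ℤ) (J : ℕ) (T : ℤ) : Prop where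
  top : T ≤ hi
  bot : lo ≤ 2 * G.l 0 - T
  last : G.l J ≤ T

omit [Fintype ι] [Fintype β] [DecidableEq β] in
lemma Geo.In.mid {G : Geo ι β} {lo hi : ℤ} {J : ℕ} {T : ℤ} (W : G.In lo hi J T) {j : ℕ}
    (hj : j < J) : lo ≤ G.l j ∧ G.l (j + 1) ≤ hi ∧ ∀ w : ℤ × ℤ, G.l j ≤ w.1 → w.1 ≤ T →
      Win lo hi (G.l j) w := by
  have h1 := G.l_mono (Nat.zero_le j)
  have h2 := G.l_mono (show j + 1 ≤ J from hj)
  have h3 := G.l_mono (Nat.le_succ j)
  have h4 := G.l_mono (Nat.zero_le J)
  have a := W.top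
  have b := W.bot
  have c := W.last
  refine ⟨by linarith, by linarith, fun w h5 h6 => ⟨h5, by linarith, by linarith⟩⟩

omit [Fintype ι] [Fintype β] [DecidableEq β] in
lemma Geo.In.site {G : Geo ι β} {lo hi : ℤ} {J : ℕ} {T : ℤ} (W : G.In lo hi J T) {j : ℕ}
    (hj : j < J) (i : ι) : Win lo hi (G.l j) (G.site j i) := by
  have h2 := G.l_mono (show j + 1 ≤ J from hj)
  exact (W.mid hj).2.2 _ (G.l_mono (Nat.le_succ j)) (h2.trans W.last)

variable {F : ℤ → MeasurableSpace Ω} {h : ℤ × ℤ → Ω → ℝ} {B : ℝ} {lo hi : ℤ}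

omit [Fintype ι] [Fintype β] [DecidableEq β] in
lemma Rows.lip_base (R : Rows μ F h B lo hi) (G : Geo ι β) {J : ℕ} {T : ℤ} (W : G.In lo hi J T)
    {j : ℕ} (hj : j < J) (i : ι) (ω : Ω) :
    |h (G.site j i) ω - h (G.base j i) ω| ≤ B * G.K := by
  obtain ⟨w1, w2, -⟩ := W.mid hj
  rw [G.l_succ] at w2
  have key : ∀ n : ℕ, n ≤ G.K → |h (G.l j + n, G.x i) ω - h (G.l j, G.x i) ω| ≤ B * n := by
    intro n
    induction n with
    | zero => simp
    | succ n ih =>
      intro hn
      have ih := ih (Nat.le_of_succ_le hn)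
      have hn' : ((n + 1 : ℕ) : ℤ) ≤ (G.K : ℤ) := by exact_mod_cast hn
      push_cast at hn'
      have hn0 : (0 : ℤ) ≤ (n : ℤ) := Int.natCast_nonneg _
      have h1 := R.lip (G.l j + n) (G.x i) ω (by linarith) (by linarith)
      have e : (G.l j + ((n + 1 : ℕ) : ℤ)) = G.l j + n + 1 := by push_cast; ring
      rw [e]
      calc |h (G.l j + n + 1, G.x i) ω - h (G.l j, G.x i) ω|
          = |(h (G.l j + n + 1, G.x i) ω - h (G.l j + n, G.x i) ω) +
            (h (G.l j + n, G.x i) ω - h (G.l j, G.x i) ω)| := by congr 1; ring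
        _ ≤ B + B * n := (abs_add_le _ _).trans (add_le_add h1 ih)
        _ = B * ((n + 1 : ℕ) : ℝ) := by push_cast; ring
  have := key G.K le_rfl
  unfold Geo.site Geo.base
  rw [G.l_succ]
  exact this

/-- Truncated conditional expectation. -/
noncomputable def cc (μ : Measure[mΩ] Ω) (F : ℤ → MeasurableSpace Ω) (h : ℤ × ℤ → Ω → ℝ) (B : ℝ)
    (G : Geo ι β) (j : ℕ) (i : ι) (ω : Ω) : ℝ :=
  max (h (G.base j i) ω - B * G.K)
    (min (h (G.base j i) ω + B * G.K) ((μ[h (G.site j i) | F (G.l j)]) ω))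

/-- Innovations of one step (truncated on a null set). -/
noncomputable def rr (μ : Measure[mΩ] Ω) (F : ℤ → MeasurableSpace Ω) (h : ℤ × ℤ → Ω → ℝ) (B : ℝ)
    (G : Geo ι β) (J : ℕ) (j : ℕ) (i : ι) (ω : Ω) : ℝ :=
  if j < J then h (G.site j i) ω - cc μ F h B G j i ω else 0

omit [Fintype ι] [Fintype β] [DecidableEq β] in
lemma rr_lt {G : Geo ι β} {J j : ℕ} (hj : j < J) :
    rr μ F h B G J j = fun i ω => h (G.site j i) ω - cc μ F h B G j i ω := by
  funext i ω
  simp [rr, hj]

omit [Fintype ι] [Fintype β] [DecidableEq β] in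
lemma rr_ge {G : Geo ι β} {J j : ℕ} (hj : ¬ j < J) : rr μ F h B G J j = fun _ _ => 0 := by
  funext i ω
  simp [rr, hj]

/-- The zero family has the Newman property. -/
lemma np_zero [IsProbabilityMeasure μ] {m : MeasurableSpace Ω} (hm : m ≤ mΩ) :
    NP μ m (fun (_ : ι) (_ : Ω) => (0 : ℝ)) := by
  refine CondAssoc.np (fun i => ⟨measurable_const, 0, by simp⟩) ?_
  intro f g _ _ _ _
  have e1 : (μ[fun _ : Ω => f (fun _ => (0 : ℝ)) | m]) = fun _ => f (fun _ => 0) :=
    condExp_const hm _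
  have e2 : (μ[fun _ : Ω => g (fun _ => (0 : ℝ)) | m]) = fun _ => g (fun _ => 0) :=
    condExp_const hm _
  have e3 : (μ[fun _ : Ω => f (fun _ => (0 : ℝ)) * g (fun _ => (0 : ℝ)) | m]) =
      fun _ => f (fun _ => 0) * g (fun _ => 0) := condExp_const hm _
  rw [e1, e2, e3]

section

variable [IsProbabilityMeasure μ]

omit [Fintype ι] [Fintype β] [DecidableEq β] in
lemma nonneg_BK (R : Rows μ F h B lo hi) (G : Geo ι β) {J : ℕ} {T : ℤ} (W : G.In lo hi J T)
    {j : ℕ} (hj : j < J) (i : ι) : 0 ≤ B * G.K := by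
  obtain ⟨ω⟩ : Nonempty Ω := by
    by_contra h
    rw [not_nonempty_iff] at h
    have h1 := measure_univ (μ := μ)
    rw [Set.univ_eq_empty_iff.2 h, measure_empty] at h1
    exact zero_ne_one h1
  exact (abs_nonneg _).trans (R.lip_base G W hj i ω)

omit [Fintype ι] [Fintype β] [DecidableEq β] in
lemma cc_ae (R : Rows μ F h B lo hi) (G : Geo ι β) {J : ℕ} {T : ℤ} (W : G.In lo hi J T)
    {j : ℕ} (hj : j < J) (i : ι) :
    cc μ F h B G j i =ᵐ[μ] μ[h (G.site j i) | F (G.l j)] := by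
  have hb := R.bm (G.base j i)
  have hs := R.bm (G.site j i)
  have hbm : StronglyMeasurable[F (G.l j)] (h (G.base j i)) := (R.meas (G.base j i)).stronglyMeasurable
  have up : μ[h (G.site j i) | F (G.l j)] ≤ᵐ[μ] fun ω => h (G.base j i) ω + B * G.K := by
    have h1 : μ[h (G.site j i) | F (G.l j)] ≤ᵐ[μ]
        μ[fun ω => h (G.base j i) ω + B * G.K | F (G.l j)] := by
      refine condExp_mono hs.integrable (hb.integrable.add (integrable_const _)) ?_
      refine ae_of_all _ fun ω => ?_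
      have := (abs_le.1 (R.lip_base G W hj i ω)).2
      simp only
      linarith
    have e1 : μ[fun ω => h (G.base j i) ω + B * G.K | F (G.l j)] =
        fun ω => h (G.base j i) ω + B * G.K :=
      condExp_of_stronglyMeasurable (R.hF _) (hbm.add stronglyMeasurable_const)
        (hb.integrable.add (integrable_const _))
    rwa [e1] at h1
  have lo' : (fun ω => h (G.base j i) ω - B * G.K) ≤ᵐ[μ] μ[h (G.site j i) | F (G.l j)] := by
    have h1 : μ[fun ω => h (G.base j i) ω - B * G.K | F (G.l j)] ≤ᵐ[μ]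
        μ[h (G.site j i) | F (G.l j)] := by
      refine condExp_mono (hb.integrable.sub (integrable_const _)) hs.integrable ?_
      refine ae_of_all _ fun ω => ?_
      have := (abs_le.1 (R.lip_base G W hj i ω)).1
      simp only
      linarith
    have e1 : μ[fun ω => h (G.base j i) ω - B * G.K | F (G.l j)] =
        fun ω => h (G.base j i) ω - B * G.K :=
      condExp_of_stronglyMeasurable (R.hF _) (hbm.sub stronglyMeasurable_const)
        (hb.integrable.sub (integrable_const _))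
    rwa [e1] at h1
  filter_upwards [up, lo'] with ω h1 h2
  unfold cc
  rw [min_eq_right h1, max_eq_right h2]

omit [Fintype ι] [Fintype β] [DecidableEq β] in
lemma rr_ae (R : Rows μ F h B lo hi) (G : Geo ι β) {J : ℕ} {T : ℤ} (W : G.In lo hi J T)
    {j : ℕ} (hj : j < J) (i : ι) :
    rr μ F h B G J j i =ᵐ[μ] inn μ F h (G.l j) (G.site j i) := by
  rw [rr_lt hj]
  filter_upwards [cc_ae R G W hj i] with ω h1
  simp only [inn, h1]

omit [Fintype ι] [Fintype β] [DecidableEq β] [IsProbabilityMeasure μ] in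
lemma cc_meas (R : Rows μ F h B lo hi) (G : Geo ι β) (j : ℕ) (i : ι) :
    Measurable[F (G.l j)] (cc μ F h B G j i) := by
  have hbm : Measurable[F (G.l j)] (h (G.base j i)) := R.meas (G.base j i)
  have hc : Measurable[F (G.l j)] (μ[h (G.site j i) | F (G.l j)]) :=
    stronglyMeasurable_condExp.measurable
  exact (hbm.sub_const _).max ((hbm.add_const _).min hc)

omit [Fintype ι] [Fintype β] [DecidableEq β] in
lemma cc_dist (R : Rows μ F h B lo hi) (G : Geo ι β) {J : ℕ} {T : ℤ} (W : G.In lo hi J T)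
    {j : ℕ} (hj : j < J) (i : ι) (ω : Ω) :
    |h (G.base j i) ω - cc μ F h B G j i ω| ≤ B * G.K := by
  have h0 := nonneg_BK R G W hj i
  unfold cc
  rw [abs_le]
  constructor
  · have h1 : max (h (G.base j i) ω - B * G.K)
      (min (h (G.base j i) ω + B * G.K) ((μ[h (G.site j i) | F (G.l j)]) ω)) ≤
        h (G.base j i) ω + B * G.K :=
      max_le (by linarith) (min_le_left _ _)
    linarith
  · have h1 := le_max_left (h (G.base j i) ω - B * G.K)
      (min (h (G.base j i) ω + B * G.K) ((μ[h (G.site j i) | F (G.l j)]) ω))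
    linarith

omit [Fintype ι] [Fintype β] [DecidableEq β] in
lemma rr_bound (R : Rows μ F h B lo hi) (G : Geo ι β) {J : ℕ} {T : ℤ} (W : G.In lo hi J T)
    (hB : 0 ≤ B) (j : ℕ) (i : ι) (ω : Ω) :
    |rr μ F h B G J j i ω| ≤ 2 * (B * G.K) := by
  by_cases hj : j < J
  · have h1 := R.lip_base G W hj i ω
    have h2 := cc_dist R G W hj i ω
    rw [rr_lt hj]
    calc |h (G.site j i) ω - cc μ F h B G j i ω|
        = |(h (G.site j i) ω - h (G.base j i) ω) + (h (G.base j i) ω - cc μ F h B G j i ω)| := by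
          congr 1
          ring
      _ ≤ B * G.K + B * G.K := (abs_add_le _ _).trans (add_le_add h1 h2)
      _ = 2 * (B * G.K) := by ring
  · rw [rr_ge hj]
    simp only [abs_zero]
    positivity

omit [Fintype ι] [Fintype β] [DecidableEq β] in
lemma cc_bm (R : Rows μ F h B lo hi) (G : Geo ι β) {J : ℕ} {T : ℤ} (W : G.In lo hi J T)
    {j : ℕ} (hj : j < J) (i : ι) : BM (mΩ := mΩ) (cc μ F h B G j i) := by
  obtain ⟨m1, C, hC⟩ := R.bm (G.base j i)
  refine ⟨(cc_meas R G j i).mono (R.hF _) le_rfl, C + B * G.K, fun ω => ?_⟩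
  have h2 := cc_dist R G W hj i ω
  calc |cc μ F h B G j i ω|
      = |h (G.base j i) ω - (h (G.base j i) ω - cc μ F h B G j i ω)| := by congr 1; ring
    _ ≤ |h (G.base j i) ω| + |h (G.base j i) ω - cc μ F h B G j i ω| := abs_sub _ _
    _ ≤ C + B * G.K := add_le_add (hC ω) h2

omit [Fintype ι] [Fintype β] [DecidableEq β] in
lemma rr_bm (R : Rows μ F h B lo hi) (G : Geo ι β) {J : ℕ} {T : ℤ} (W : G.In lo hi J T)
    (j : ℕ) (i : ι) : BM (mΩ := mΩ) (rr μ F h B G J j i) := by
  by_cases hj : j < J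
  · rw [rr_lt hj]
    obtain ⟨m1, C, hC⟩ := R.bm (G.site j i)
    obtain ⟨m2, C', hC'⟩ := cc_bm R G W hj i
    exact ⟨m1.sub m2, C + C', fun ω => (abs_sub _ _).trans (add_le_add (hC ω) (hC' ω))⟩
  · rw [rr_ge hj]
    exact ⟨measurable_const, 0, by simp⟩

omit [Fintype β] [DecidableEq β] in
lemma rr_np (R : Rows μ F h B lo hi) (G : Geo ι β) {J : ℕ} {T : ℤ} (W : G.In lo hi J T)
    (hK : 0 < G.K) (j : ℕ) : NP μ (F (G.l j)) (rr μ F h B G J j) := by
  by_cases hj : j < J
  · rw [rr_lt hj]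
    obtain ⟨w1, w2, -⟩ := W.mid hj
    have h1 := R.np (G.l j) (G.site j) w1 (fun i => by
      refine ⟨?_, w2⟩
      show G.l j < G.l (j + 1)
      rw [G.l_succ]
      have : (0 : ℤ) < G.K := by exact_mod_cast hK
      linarith)
    exact h1.sub (R.hF _) (fun i => R.bm _) (fun i => cc_meas R G j i) (fun i => cc_bm R G W hj i)
  · rw [rr_ge hj]
    exact np_zero (R.hF _)

omit [Fintype ι] [Fintype β] [DecidableEq β] in
lemma rr_centered (R : Rows μ F h B lo hi) (G : Geo ι β) {J : ℕ} {T : ℤ} (W : G.In lo hi J T)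
    (j : ℕ) (i : ι) :
    μ[rr μ F h B G J j i | F (G.l j)] =ᵐ[μ] 0 := by
  by_cases hj : j < J
  · exact (condExp_congr_ae (rr_ae R G W hj i)).trans (R.condExp_inn _ _)
  · rw [rr_ge hj]
    exact (condExp_const (R.hF _) (0 : ℝ)).eventuallyEq

omit [Fintype ι] [Fintype β] [DecidableEq β] [IsProbabilityMeasure μ] in
lemma rr_meas (R : Rows μ F h B lo hi) (G : Geo ι β) (J : ℕ) (j : ℕ) (i : ι) :
    Measurable[F (G.l (j + 1))] (rr μ F h B G J j i) := by
  by_cases hj : j < J
  · rw [rr_lt hj]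
    have h1 : Measurable[F (G.l (j + 1))] (h (G.site j i)) := R.meas (G.site j i)
    exact h1.sub ((cc_meas R G j i).mono (R.mono (G.l_mono (Nat.le_succ j))) le_rfl)
  · rw [rr_ge hj]
    exact measurable_const

omit [Fintype ι] [Fintype β] [DecidableEq β] in
lemma int_rr_rr (R : Rows μ F h B lo hi) (G : Geo ι β) {J : ℕ} {T : ℤ} (W : G.In lo hi J T)
    {j : ℕ} (hj : j < J) (i i' : ι) :
    ∫ ω, rr μ F h B G J j i ω * rr μ F h B G J j i' ω ∂μ =
      cr μ h (G.l j) (G.site j i) (G.site j i') := by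
  rw [← R.int_inn_inn (G.l j) (G.site j i) (G.site j i') (W.site hj i) (W.site hj i')]
  refine integral_congr_ae ?_
  filter_upwards [rr_ae R G W hj i, rr_ae R G W hj i'] with ω h1 h2
  simp only [h1, h2]

end

end Vale.Agent.P153.Asm
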