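import Vale.Agent.P153.Asm.Strip

/-!
# The strip inequality: main theorem
-/

namespace Vale.Agent.P153.Asm

open MeasureTheory Filter Finset
open scoped Topology ENNReal
open Vale.Agent.P153.CLT

variable {Ω : Type*} {mΩ : MeasurableSpace Ω} {μ : Measure Ω}

/-- Covariance of innovations in terms of mean square differences. -/
noncomputable def crV (V : ℤ × ℤ → ℤ × ℤ → ℝ) (l : ℤ) (p q : ℤ × ℤ) : ℝ :=
  (V p (rho l q) - V p q) / 2

/-- Covariance of projected increments. -/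
noncomputable def trV (V : ℤ × ℤ → ℤ × ℤ → ℝ) (l : ℤ) (p π q π' : ℤ × ℤ) : ℝ :=
  (V p π' + V π (rho l q) - V p (rho l q) - V π π') / 2

/-- Covariance of increments. -/
noncomputable def ddV (V : ℤ × ℤ → ℤ × ℤ → ℝ) (p π q π' : ℤ × ℤ) : ℝ :=
  (V p π' + V π q - V p q - V π π') / 2

variable {ι β : Type} [Fintype ι] [Fintype β] [DecidableEq β]

/-- Mean square error of the innovation approximation. -/
noncomputable def err2 (V : ℤ × ℤ → ℤ × ℤ → ℝ) (G : Geo ι β) (A : Finset (ℤ × ℤ))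
    (a : ℤ × ℤ → ℝ) (g : ℕ → ι → ℝ) (J : ℕ) : ℝ :=
  (-(1 / 2)) * ∑ w ∈ A, ∑ w' ∈ A, a w * a w' * V w w' -
  2 * ∑ j ∈ range J, ∑ i, g j i * ∑ w ∈ A,
    (if G.l j < w.1 then a w * crV V (G.l j) w (G.site j i) else 0) +
  ∑ j ∈ range J, ∑ i, ∑ i', g j i * g j i' * crV V (G.l j) (G.site j i) (G.site j i')

/-- Covariances between different blocks. -/
noncomputable def vcross (V : ℤ × ℤ → ℤ × ℤ → ℝ) (G : Geo ι β) (g : ℕ → ι → ℝ) (J : ℕ) : ℝ :=
  ∑ j ∈ range J, ∑ i, ∑ i', if G.b i = G.b i' then 0 else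
    |g j i| * |g j i'| * crV V (G.l j) (G.site j i) (G.site j i')

/-- Sum of the variances of the block sums. -/
noncomputable def vsq (V : ℤ × ℤ → ℤ × ℤ → ℝ) (G : Geo ι β) (g : ℕ → ι → ℝ) (J : ℕ) : ℝ :=
  ∑ j ∈ range J, ∑ c : β, ∑ i ∈ sT G.b {c}, ∑ i' ∈ sT G.b {c},
    g j i * g j i' * crV V (G.l j) (G.site j i) (G.site j i')

/-- Sum of the second moments of the local block sums. -/
noncomputable def vloc (V : ℤ × ℤ → ℤ × ℤ → ℝ) (G : Geo ι β) (g : ℕ → ι → ℝ) (J : ℕ) : ℝ :=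
  ∑ j ∈ range J, ∑ c : β, ∑ i ∈ sT G.b {c}, ∑ i' ∈ sT G.b {c},
    g j i * g j i' * ddV V (G.site j i) (G.base j i) (G.site j i') (G.base j i')

/-- Sum of the second moments of the differences. -/
noncomputable def vdel (V : ℤ × ℤ → ℤ × ℤ → ℝ) (G : Geo ι β) (g : ℕ → ι → ℝ) (J : ℕ) : ℝ :=
  ∑ j ∈ range J, ∑ c : β, ∑ i ∈ sT G.b {c}, ∑ i' ∈ sT G.b {c},
    g j i * g j i' * trV V (G.l j) (G.site j i) (G.base j i) (G.site j i') (G.base j i')

/-- Local block sum. -/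
def yloc (h : ℤ × ℤ → Ω → ℝ) (G : Geo ι β) (g : ℕ → ι → ℝ) (j : ℕ) (c : β) (ω : Ω) : ℝ :=
  ∑ i ∈ sT G.b {c}, g j i * (h (G.site j i) ω - h (G.base j i) ω)

/-- Deviation of the local squares. -/
noncomputable def dev (μ : Measure[mΩ] Ω) (h : ℤ × ℤ → Ω → ℝ) (G : Geo ι β) (g : ℕ → ι → ℝ)
    (J : ℕ) (s : ℝ) : ℝ :=
  ∫ ω, |∑ j ∈ range J, ∑ c : β, yloc h G g j c ω ^ 2 - s| ∂μ

variable {F : ℤ → MeasurableSpace Ω} {h : ℤ × ℤ → Ω → ℝ} {B : ℝ} {lo hi : ℤ}

section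

variable [IsProbabilityMeasure μ]

omit [Fintype ι] [Fintype β] [DecidableEq β] in
lemma rr_memLp (R : Rows μ F h B lo hi) (G : Geo ι β) {J : ℕ} {T : ℤ} (W : G.In lo hi J T)
    (j : ℕ) (i : ι) : MemLp (rr μ F h B G J j i) 2 μ :=
  (rr_bm R G W j i).memLp 2

omit [Fintype β] [DecidableEq β] in
/-- The error of the innovation approximation. -/
lemma int_sq_XY (R : Rows μ F h B lo hi) (G : Geo ι β) {J : ℕ} {T : ℤ} (W : G.In lo hi J T)
    (A : Finset (ℤ × ℤ)) (hAT : ∀ w ∈ A, w.1 ≤ T) (a : ℤ × ℤ → ℝ)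
    (ha : ∑ w ∈ A, a w = 0) (g : ℕ → ι → ℝ) :
    ∫ ω, (∑ w ∈ A, a w * h w ω - ∑ j ∈ range J, ∑ i, g j i * rr μ F h B G J j i ω) ^ 2 ∂μ =
      err2 (msd μ h) G A a g J := by
  classical
  -- reindex the innovations
  set X : Ω → ℝ := fun ω => ∑ w ∈ A, a w * h w ω with hX
  set Y : Ω → ℝ := fun ω => ∑ j ∈ range J, ∑ i, g j i * rr μ F h B G J j i ω with hY
  have hY' : ∀ ω, Y ω = ∑ k ∈ range J ×ˢ (univ : Finset ι), g k.1 k.2 * rr μ F h B G J k.1 k.2 ω := by
    intro ω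
    rw [hY, Finset.sum_product]
  have hmh : ∀ w ∈ A, MemLp (h w) 2 μ := fun w _ => (R.bm w).memLp 2
  have hmr : ∀ k ∈ range J ×ˢ (univ : Finset ι), MemLp (rr μ F h B G J k.1 k.2) 2 μ :=
    fun k _ => rr_memLp R G W k.1 k.2
  have hXm : MemLp X 2 μ := memLp_finsetSum _ fun w hw => (hmh w hw).const_mul (a w)
  have hYm : MemLp Y 2 μ := memLp_finsetSum _ fun j _ => memLp_finsetSum _ fun i _ =>
    (rr_memLp R G W j i).const_mul (g j i)
  have e0 : (fun ω => (X ω - Y ω) ^ 2) = fun ω => X ω ^ 2 + (-2) * (X ω * Y ω) + Y ω ^ 2 := by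
    funext ω
    ring
  have e1 : ∫ ω, (X ω - Y ω) ^ 2 ∂μ =
      ∫ ω, X ω ^ 2 ∂μ + (-2) * ∫ ω, X ω * Y ω ∂μ + ∫ ω, Y ω ^ 2 ∂μ := by
    rw [e0]
    exact int3 hXm.integrable_sq (hXm.integrable_mul hYm) hYm.integrable_sq (-2)
  -- the variance of X
  have vX : ∫ ω, X ω ^ 2 ∂μ = (-(1 / 2)) * ∑ w ∈ A, ∑ w' ∈ A, a w * a w' * msd μ h w w' := by
    have h1 : ∫ ω, X ω ^ 2 ∂μ = ∑ w ∈ A, ∑ w' ∈ A, a w * a w' * ∫ ω, h w ω * h w' ω ∂μ := by
      rw [← int_sum_mul_sum A A a a h h hmh hmh]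
      exact integral_congr_ae (ae_of_all _ fun ω => by simp only [hX]; ring)
    rw [h1]
    have h2 : ∀ w w', a w * a w' * ∫ ω, h w ω * h w' ω ∂μ =
        (a w * (∫ ω, h w ω ^ 2 ∂μ) / 2) * a w' + (a w) * (a w' * (∫ ω, h w' ω ^ 2 ∂μ) / 2) +
          (-(1 / 2)) * (a w * a w' * msd μ h w w') := by
      intro w w'
      rw [R.int_mul w w']
      ring
    simp only [h2, Finset.sum_add_distrib, ← Finset.mul_sum, ha, mul_zero, Finset.sum_const_zero]
    rw [← Finset.sum_mul, ha]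
    ring
  -- the covariance
  have cXY : ∫ ω, X ω * Y ω ∂μ = ∑ j ∈ range J, ∑ i, g j i * ∑ w ∈ A,
      (if G.l j < w.1 then a w * crV (msd μ h) (G.l j) w (G.site j i) else 0) := by
    have h1 : ∫ ω, X ω * Y ω ∂μ = ∑ w ∈ A, ∑ k ∈ range J ×ˢ (univ : Finset ι),
        a w * g k.1 k.2 * ∫ ω, h w ω * rr μ F h B G J k.1 k.2 ω ∂μ := by
      rw [← int_sum_mul_sum A (range J ×ˢ (univ : Finset ι)) a (fun k => g k.1 k.2) h
        (fun k => rr μ F h B G J k.1 k.2) hmh hmr]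
      refine integral_congr_ae (ae_of_all _ fun ω => ?_)
      simp only [hY' ω, hX]
    rw [h1, Finset.sum_comm, Finset.sum_product]
    refine Finset.sum_congr rfl fun j hj => Finset.sum_congr rfl fun i _ => ?_
    rw [Finset.mul_sum]
    refine Finset.sum_congr rfl fun w hwA => ?_
    rw [Finset.mem_range] at hj
    have h2 : ∫ ω, h w ω * rr μ F h B G J j i ω ∂μ =
        ∫ ω, h w ω * inn μ F h (G.l j) (G.site j i) ω ∂μ := by
      refine integral_congr_ae ?_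
      filter_upwards [rr_ae R G W hj i] with ω h1
      simp only [h1]
    simp only
    rw [h2]
    split_ifs with hw
    · rw [R.int_h_inn (G.l j) w (G.site j i) ((W.mid hj).2.2 w hw.le (hAT w hwA)) (W.site hj i)]
      unfold cr crV
      ring
    · rw [R.int_h_inn_zero (G.l j) w (G.site j i) (not_lt.1 hw)]
      ring
  -- the variance of Y
  have vY : ∫ ω, Y ω ^ 2 ∂μ = ∑ j ∈ range J, ∑ i, ∑ i', g j i * g j i' *
      crV (msd μ h) (G.l j) (G.site j i) (G.site j i') := by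
    have hDm : ∀ j, AEStronglyMeasurable[F (G.l (j + 1))] (fun ω => ∑ i, g j i * rr μ F h B G J j i ω)
        μ := fun j => (Finset.measurable_sum _ fun i _ =>
          (rr_meas R G J j i).const_mul _).stronglyMeasurable.aestronglyMeasurable
    have hD2 : ∀ j, MemLp (fun ω => ∑ i, g j i * rr μ F h B G J j i ω) 2 μ := fun j =>
      memLp_finsetSum _ fun i _ => (rr_memLp R G W j i).const_mul (g j i)
    have hD0 : ∀ j, μ[fun ω => ∑ i, g j i * rr μ F h B G J j i ω | F (G.l j)] =ᵐ[μ] 0 := by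
      intro j
      have e : (fun ω => ∑ i, g j i * rr μ F h B G J j i ω) =
          ∑ i, (g j i) • rr μ F h B G J j i := by
        funext ω
        simp [Finset.sum_apply]
      rw [e]
      have h1 := condExp_finsetSum (μ := μ) (s := (univ : Finset ι))
        (f := fun i => (g j i) • rr μ F h B G J j i)
        (fun i _ => ((rr_memLp R G W j i).integrable (by norm_num)).smul _) (F (G.l j))
      refine h1.trans ?_
      have h3 : ∀ᵐ ω ∂μ, ∀ i ∈ (univ : Finset ι),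
          (μ[(g j i) • rr μ F h B G J j i | F (G.l j)]) ω = 0 := by
        refine (Finset.eventually_all (univ : Finset ι) (l := ae μ)
          (p := fun i ω => (μ[(g j i) • rr μ F h B G J j i | F (G.l j)]) ω = 0)).2 (fun i _ => ?_)
        filter_upwards [condExp_smul (μ := μ) (g j i) (rr μ F h B G J j i) (F (G.l j)),
          rr_centered R G W j i] with ω a b
        rw [a, Pi.smul_apply, b]
        simp
      filter_upwards [h3] with ω h
      rw [Finset.sum_apply, Pi.zero_apply]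
      exact Finset.sum_eq_zero h
    obtain ⟨-, -, h1⟩ := mart_orth (μ := μ) (fun j => F (G.l j)) (fun j => R.hF _)
      (fun i j hij => R.mono (G.l_mono hij)) (fun j ω => ∑ i, g j i * rr μ F h B G J j i ω)
      hDm hD2 hD0 J
    rw [hY, h1]
    refine Finset.sum_congr rfl fun j hj => ?_
    rw [Finset.mem_range] at hj
    have h2 : ∫ ω, (∑ i, g j i * rr μ F h B G J j i ω) ^ 2 ∂μ =
        ∑ i, ∑ i', g j i * g j i' * ∫ ω, rr μ F h B G J j i ω * rr μ F h B G J j i' ω ∂μ := by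
      rw [← int_sum_mul_sum univ univ (g j) (g j) (rr μ F h B G J j) (rr μ F h B G J j)
        (fun i _ => rr_memLp R G W j i) (fun i _ => rr_memLp R G W j i)]
      exact integral_congr_ae (ae_of_all _ fun ω => by simp only; ring)
    rw [h2]
    refine Finset.sum_congr rfl fun i _ => Finset.sum_congr rfl fun i' _ => ?_
    rw [int_rr_rr R G W hj i i']
    rfl
  unfold err2
  rw [e1, vX, cXY, vY]
  ring

omit [Fintype β] in
lemma int_block_sq (R : Rows μ F h B lo hi) (G : Geo ι β) {J : ℕ} {T : ℤ} (W : G.In lo hi J T)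
    (g : ℕ → ι → ℝ) {j : ℕ} (hj : j < J) (c : β) :
    ∫ ω, lL (g j) (rr μ F h B G J j) (sT G.b {c}) ω ^ 2 ∂μ =
      ∑ i ∈ sT G.b {c}, ∑ i' ∈ sT G.b {c},
        g j i * g j i' * crV (msd μ h) (G.l j) (G.site j i) (G.site j i') := by
  have h2 : ∫ ω, lL (g j) (rr μ F h B G J j) (sT G.b {c}) ω ^ 2 ∂μ =
      ∑ i ∈ sT G.b {c}, ∑ i' ∈ sT G.b {c},
        g j i * g j i' * ∫ ω, rr μ F h B G J j i ω * rr μ F h B G J j i' ω ∂μ := by
    rw [← int_sum_mul_sum _ _ (g j) (g j) (rr μ F h B G J j) (rr μ F h B G J j)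
      (fun i _ => rr_memLp R G W j i) (fun i _ => rr_memLp R G W j i)]
    exact integral_congr_ae (ae_of_all _ fun ω => by simp only [lL]; ring)
  rw [h2]
  refine Finset.sum_congr rfl fun i _ => Finset.sum_congr rfl fun i' _ => ?_
  rw [int_rr_rr R G W hj i i']
  rfl

omit [Fintype β] in
lemma int_loc_sq (R : Rows μ F h B lo hi) (G : Geo ι β) (g : ℕ → ι → ℝ) (j : ℕ) (c : β) :
    ∫ ω, yloc h G g j c ω ^ 2 ∂μ =
      ∑ i ∈ sT G.b {c}, ∑ i' ∈ sT G.b {c},
        g j i * g j i' * ddV (msd μ h) (G.site j i) (G.base j i) (G.site j i') (G.base j i') := by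
  have hm : ∀ i : ι, MemLp (fun ω => h (G.site j i) ω - h (G.base j i) ω) 2 μ := fun i =>
    ((R.bm _).memLp 2).sub ((R.bm _).memLp 2)
  have h2 : ∫ ω, yloc h G g j c ω ^ 2 ∂μ =
      ∑ i ∈ sT G.b {c}, ∑ i' ∈ sT G.b {c}, g j i * g j i' *
        ∫ ω, (h (G.site j i) ω - h (G.base j i) ω) * (h (G.site j i') ω - h (G.base j i') ω) ∂μ := by
    rw [← int_sum_mul_sum _ _ (g j) (g j) (fun i ω => h (G.site j i) ω - h (G.base j i) ω)
      (fun i ω => h (G.site j i) ω - h (G.base j i) ω) (fun i _ => hm i) (fun i _ => hm i)]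
    exact integral_congr_ae (ae_of_all _ fun ω => by simp only [yloc]; ring)
  rw [h2]
  refine Finset.sum_congr rfl fun i _ => Finset.sum_congr rfl fun i' _ => ?_
  rw [R.int_diff]
  rfl

omit [Fintype β] in
lemma int_del_sq (R : Rows μ F h B lo hi) (G : Geo ι β) {J : ℕ} {T : ℤ} (W : G.In lo hi J T)
    (g : ℕ → ι → ℝ) {j : ℕ} (hj : j < J) (c : β) :
    ∫ ω, (lL (g j) (rr μ F h B G J j) (sT G.b {c}) ω - yloc h G g j c ω) ^ 2 ∂μ =
      ∑ i ∈ sT G.b {c}, ∑ i' ∈ sT G.b {c},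
        g j i * g j i' * trV (msd μ h) (G.l j) (G.site j i) (G.base j i) (G.site j i')
          (G.base j i') := by
  classical
  have hm : ∀ i : ι, MemLp (fun ω => (μ[h (G.site j i) | F (G.l j)]) ω - h (G.base j i) ω) 2 μ :=
    fun i => (R.memLp_condExp _ _).sub ((R.bm _).memLp 2)
  have e : (fun ω => (lL (g j) (rr μ F h B G J j) (sT G.b {c}) ω - yloc h G g j c ω) ^ 2) =ᵐ[μ]
      fun ω => (∑ i ∈ sT G.b {c}, g j i * ((μ[h (G.site j i) | F (G.l j)]) ω -
        h (G.base j i) ω)) * (∑ i ∈ sT G.b {c}, g j i * ((μ[h (G.site j i) | F (G.l j)]) ω -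
        h (G.base j i) ω)) := by
    have h1 : ∀ᵐ ω ∂μ, ∀ i : ι, cc μ F h B G j i ω = (μ[h (G.site j i) | F (G.l j)]) ω :=
      ae_all_iff.2 fun i => cc_ae R G W hj i
    filter_upwards [h1] with ω h1
    have e1 : lL (g j) (rr μ F h B G J j) (sT G.b {c}) ω - yloc h G g j c ω =
        -∑ i ∈ sT G.b {c}, g j i * ((μ[h (G.site j i) | F (G.l j)]) ω - h (G.base j i) ω) := by
      unfold lL yloc
      rw [← Finset.sum_sub_distrib, ← Finset.sum_neg_distrib]
      refine Finset.sum_congr rfl fun i _ => ?_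
      rw [rr_lt hj]
      simp only
      rw [h1 i]
      ring
    rw [e1]
    ring
  rw [integral_congr_ae e, int_sum_mul_sum _ _ (g j) (g j)
    (fun i ω => (μ[h (G.site j i) | F (G.l j)]) ω - h (G.base j i) ω)
    (fun i ω => (μ[h (G.site j i) | F (G.l j)]) ω - h (G.base j i) ω)
    (fun i _ => hm i) (fun i _ => hm i)]
  refine Finset.sum_congr rfl fun i _ => Finset.sum_congr rfl fun i' _ => ?_
  rw [R.int_proj (G.l j) (G.site j i) (G.base j i) (G.site j i') (G.base j i')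
    (W.site hj i) (W.site hj i') rfl rfl]
  rfl

end

end Vale.Agent.P153.Asm
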