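import Vale.Agent.P153.Asm.Strip2

/-!
# The strip inequality: conclusion
-/

namespace Vale.Agent.P153.Asm

open MeasureTheory Filter Finset
open scoped Topology ENNReal
open Vale.Agent.P153.CLT

variable {Ω : Type*} {mΩ : MeasurableSpace Ω} {μ : Measure Ω}
variable {ι β : Type} [Fintype ι] [Fintype β] [DecidableEq β]
variable {F : ℤ → MeasurableSpace Ω} {h : ℤ × ℤ → Ω → ℝ} {B : ℝ} {lo hi : ℤ}

lemma norm_ei_sub_ei_le (x y : ℝ) : ‖ei x - ei y‖ ≤ |x - y| := by
  have h1 : ei x - ei y = ei y * (ei (x - y) - 1) := by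
    rw [mul_sub, ← ei_add, mul_one]
    congr 2
    ring
  rw [h1, norm_mul, norm_ei, one_mul]
  unfold ei
  exact Real.norm_exp_I_mul_ofReal_sub_one_le

lemma int_combo {f g k : Ω → ℝ} (hf : Integrable f μ) (hg : Integrable g μ)
    (hk : Integrable k μ) {t c : ℝ} :
    ∫ ω, (f ω + (t * g ω + c * k ω)) ∂μ = ∫ ω, f ω ∂μ + (t * ∫ ω, g ω ∂μ + c * ∫ ω, k ω ∂μ) := by
  have h1 : ∫ ω, (f ω + (t * g ω + c * k ω)) ∂μ = ∫ ω, f ω ∂μ + ∫ ω, (t * g ω + c * k ω) ∂μ :=
    integral_add hf ((hg.const_mul t).add (hk.const_mul c))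
  have h2 : ∫ ω, (t * g ω + c * k ω) ∂μ = ∫ ω, t * g ω ∂μ + ∫ ω, c * k ω ∂μ :=
    integral_add (hg.const_mul t) (hk.const_mul c)
  rw [h1, h2, integral_const_mul, integral_const_mul]

/-- **Strip inequality.** -/
theorem strip [IsProbabilityMeasure μ] (R : Rows μ F h B lo hi) (hB : 0 ≤ B) (G : Geo ι β)
    {J : ℕ} {T : ℤ} (W : G.In lo hi J T) (hK : 0 < G.K)
    (A : Finset (ℤ × ℤ)) (hAT : ∀ w ∈ A, w.1 ≤ T) (a : ℤ × ℤ → ℝ) (ha : ∑ w ∈ A, a w = 0)
    (g : ℕ → ι → ℝ)
    {η : ℝ} (hη1 : η ≤ 1)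
    (hη : ∀ j c, ∑ i ∈ sT G.b {c}, |g j i| * (2 * (B * G.K)) ≤ η)
    (s : ℝ) (hs : 0 ≤ s) (t : ℝ) (ht : 0 < t) :
    ‖∫ ω, ei (∑ w ∈ A, a w * h w ω) ∂μ - ((Real.exp (-s / 2) : ℝ) : ℂ)‖ ≤
      Real.sqrt (err2 (msd μ h) G A a g J) +
      2 * (4 * vcross (msd μ h) G g J + η * vsq (msd μ h) G g J) +
      (s + 4) * (dev μ h G g J s + t * vloc (msd μ h) G g J +
        (1 + 1 / t) * vdel (msd μ h) G g J + Real.sqrt J * (Fintype.card β * η ^ 2)) := by
  classical
  set r := rr μ F h B G J with hr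
  have hblock : ∀ j c ω, |lL (g j) (r j) (sT G.b {c}) ω| ≤ η := by
    intro j c ω
    unfold lL
    refine (Finset.abs_sum_le_sum_abs _ _).trans (le_trans (Finset.sum_le_sum fun i _ => ?_) (hη j c))
    rw [abs_mul]
    exact mul_le_mul_of_nonneg_left (rr_bound R G W hB j i ω) (abs_nonneg _)
  have hclt := np_mart_clt_sq (μ := μ) (fun j => F (G.l j)) (fun j => R.hF _)
    (fun i j hij => R.mono (G.l_mono hij)) r g G.b (fun j i => rr_meas R G J j i)
    (2 * (B * G.K)) (fun j i ω => rr_bound R G W hB j i ω) (fun j => rr_np R G W hK j)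
    (fun j i => rr_centered R G W j i) hη1 hblock s hs J
  -- the cross covariances and the variances
  have hcross : ∀ j < J, cross μ (g j) (r j) G.b univ = ∑ i, ∑ i', if G.b i = G.b i' then 0 else
      |g j i| * |g j i'| * crV (msd μ h) (G.l j) (G.site j i) (G.site j i') := by
    intro j hj
    unfold cross
    refine Finset.sum_congr rfl fun i _ => Finset.sum_congr rfl fun i' _ => ?_
    rw [hr, int_rr_rr R G W hj i i']
    rfl
  have hvar : ∀ j < J, ∑ c : β, ∫ ω, lL (g j) (r j) (sT G.b {c}) ω ^ 2 ∂μ =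
      ∑ c : β, ∑ i ∈ sT G.b {c}, ∑ i' ∈ sT G.b {c},
        g j i * g j i' * crV (msd μ h) (G.l j) (G.site j i) (G.site j i') := by
    intro j hj
    exact Finset.sum_congr rfl fun c _ => int_block_sq R G W g hj c
  have h1 : ∑ j ∈ range J, (4 * cross μ (g j) (r j) G.b univ +
        η * ∑ c : β, ∫ ω, lL (g j) (r j) (sT G.b {c}) ω ^ 2 ∂μ) =
      4 * vcross (msd μ h) G g J + η * vsq (msd μ h) G g J := by
    unfold vcross vsq
    rw [Finset.sum_add_distrib, ← Finset.mul_sum, ← Finset.mul_sum]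
    congr 2
    · exact Finset.sum_congr rfl fun j hj => hcross j (Finset.mem_range.1 hj)
    · exact Finset.sum_congr rfl fun j hj => hvar j (Finset.mem_range.1 hj)
  -- L² facts
  have hrm : ∀ j i, MemLp (r j i) 2 μ := fun j i => rr_memLp R G W j i
  have hL : ∀ j c, MemLp (lL (g j) (r j) (sT G.b {c})) 2 μ := fun j c =>
    memLp_finsetSum _ fun i _ => (hrm j i).const_mul (g j i)
  have hY : ∀ j c, MemLp (yloc h G g j c) 2 μ := fun j c =>
    memLp_finsetSum _ fun i _ => (((R.bm (G.site j i)).memLp 2).sub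
      ((R.bm (G.base j i)).memLp 2)).const_mul (g j i)
  have hD : ∀ j c, MemLp (fun ω => lL (g j) (r j) (sT G.b {c}) ω - yloc h G g j c ω) 2 μ :=
    fun j c => (hL j c).sub (hY j c)
  -- the squares
  have h2 : ∫ ω, |∑ j ∈ range J, ∑ c : β, lL (g j) (r j) (sT G.b {c}) ω ^ 2 - s| ∂μ ≤
      dev μ h G g J s + t * vloc (msd μ h) G g J + (1 + 1 / t) * vdel (msd μ h) G g J := by
    have i1 : Integrable (fun ω => |∑ j ∈ range J, ∑ c : β, yloc h G g j c ω ^ 2 - s|) μ :=
      ((integrable_finsetSum _ fun j _ => integrable_finsetSum _ fun c _ =>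
        (hY j c).integrable_sq).sub (integrable_const s)).abs
    have i2 : Integrable (fun ω => ∑ j ∈ range J, ∑ c : β, yloc h G g j c ω ^ 2) μ :=
      integrable_finsetSum _ fun j _ => integrable_finsetSum _ fun c _ => (hY j c).integrable_sq
    have i3 : Integrable (fun ω => ∑ j ∈ range J, ∑ c : β,
        (lL (g j) (r j) (sT G.b {c}) ω - yloc h G g j c ω) ^ 2) μ :=
      integrable_finsetSum _ fun j _ => integrable_finsetSum _ fun c _ => (hD j c).integrable_sq
    have e2 : ∫ ω, ∑ j ∈ range J, ∑ c : β, yloc h G g j c ω ^ 2 ∂μ = vloc (msd μ h) G g J := by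
      rw [integral_finsetSum _ fun j _ => integrable_finsetSum _ fun c _ =>
        (hY j c).integrable_sq]
      unfold vloc
      refine Finset.sum_congr rfl fun j _ => ?_
      rw [integral_finsetSum _ fun c _ => (hY j c).integrable_sq]
      exact Finset.sum_congr rfl fun c _ => int_loc_sq R G g j c
    have e3 : ∫ ω, ∑ j ∈ range J, ∑ c : β,
        (lL (g j) (r j) (sT G.b {c}) ω - yloc h G g j c ω) ^ 2 ∂μ = vdel (msd μ h) G g J := by
      rw [integral_finsetSum _ fun j _ => integrable_finsetSum _ fun c _ =>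
        (hD j c).integrable_sq]
      unfold vdel
      refine Finset.sum_congr rfl fun j hj => ?_
      rw [integral_finsetSum _ fun c _ => (hD j c).integrable_sq]
      exact Finset.sum_congr rfl fun c _ => int_del_sq R G W g (Finset.mem_range.1 hj) c
    calc ∫ ω, |∑ j ∈ range J, ∑ c : β, lL (g j) (r j) (sT G.b {c}) ω ^ 2 - s| ∂μ
        ≤ ∫ ω, (|∑ j ∈ range J, ∑ c : β, yloc h G g j c ω ^ 2 - s| +
            (t * ∑ j ∈ range J, ∑ c : β, yloc h G g j c ω ^ 2 +
            (1 + 1 / t) * ∑ j ∈ range J, ∑ c : β,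
              (lL (g j) (r j) (sT G.b {c}) ω - yloc h G g j c ω) ^ 2)) ∂μ := by
          refine integral_mono_of_nonneg (ae_of_all _ fun ω => abs_nonneg _)
            (i1.add ((i2.const_mul t).add (i3.const_mul _))) (ae_of_all _ fun ω => ?_)
          simp only
          have key : ∀ j c, |lL (g j) (r j) (sT G.b {c}) ω ^ 2 - yloc h G g j c ω ^ 2| ≤
              t * yloc h G g j c ω ^ 2 +
              (1 + 1 / t) * (lL (g j) (r j) (sT G.b {c}) ω - yloc h G g j c ω) ^ 2 := by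
            intro j c
            set x := lL (g j) (r j) (sT G.b {c}) ω
            set y := yloc h G g j c ω
            have p1 : |2 * (x - y) * y| ≤ t * y ^ 2 + 1 / t * (x - y) ^ 2 := by
              have q1 : 0 ≤ t * (|y| - 1 / t * |x - y|) ^ 2 := mul_nonneg ht.le (sq_nonneg _)
              have q2 : t * (|y| - 1 / t * |x - y|) ^ 2 =
                  t * |y| ^ 2 - 2 * |x - y| * |y| + 1 / t * |x - y| ^ 2 := by
                field_simp
                ring
              rw [q2, sq_abs, sq_abs] at q1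
              rw [abs_mul, abs_mul, abs_two]
              linarith
            have p2 : x ^ 2 - y ^ 2 = 2 * (x - y) * y + (x - y) ^ 2 := by ring
            rw [p2]
            refine (abs_add_le _ _).trans ?_
            rw [abs_of_nonneg (sq_nonneg (x - y))]
            linarith
          have p3 : ∑ j ∈ range J, ∑ c : β, lL (g j) (r j) (sT G.b {c}) ω ^ 2 - s =
              (∑ j ∈ range J, ∑ c : β, yloc h G g j c ω ^ 2 - s) +
              ∑ j ∈ range J, ∑ c : β,
                (lL (g j) (r j) (sT G.b {c}) ω ^ 2 - yloc h G g j c ω ^ 2) := by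
            simp only [Finset.sum_sub_distrib]
            ring
          rw [p3]
          refine (abs_add_le _ _).trans (add_le_add le_rfl ?_)
          rw [Finset.mul_sum, Finset.mul_sum, ← Finset.sum_add_distrib]
          refine (Finset.abs_sum_le_sum_abs _ _).trans (Finset.sum_le_sum fun j _ => ?_)
          rw [Finset.mul_sum, Finset.mul_sum, ← Finset.sum_add_distrib]
          exact (Finset.abs_sum_le_sum_abs _ _).trans (Finset.sum_le_sum fun c _ => key j c)
      _ = dev μ h G g J s + t * vloc (msd μ h) G g J + (1 + 1 / t) * vdel (msd μ h) G g J := by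
          rw [int_combo i1 i2 i3, e2, e3]
          unfold dev
          ring
  -- fourth moments
  have h3 : Real.sqrt (∑ j ∈ range J, ∫ ω, (∑ c : β, lL (g j) (r j) (sT G.b {c}) ω ^ 2) ^ 2 ∂μ) ≤
      Real.sqrt J * (Fintype.card β * η ^ 2) := by
    have hnn : (0 : ℝ) ≤ Fintype.card β * η ^ 2 := by positivity
    have q1 : ∀ j, ∫ ω, (∑ c : β, lL (g j) (r j) (sT G.b {c}) ω ^ 2) ^ 2 ∂μ ≤
        (Fintype.card β * η ^ 2) ^ 2 := by
      intro j
      have q2 : ∫ ω, (∑ c : β, lL (g j) (r j) (sT G.b {c}) ω ^ 2) ^ 2 ∂μ ≤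
          ∫ _ : Ω, (Fintype.card β * η ^ 2 : ℝ) ^ 2 ∂μ := by
        refine integral_mono_of_nonneg (ae_of_all _ fun ω => sq_nonneg _) (integrable_const _)
          (ae_of_all _ fun ω => ?_)
        simp only
        refine pow_le_pow_left₀ (Finset.sum_nonneg fun c _ => sq_nonneg _) ?_ 2
        calc ∑ c : β, lL (g j) (r j) (sT G.b {c}) ω ^ 2 ≤ ∑ _c : β, η ^ 2 :=
              Finset.sum_le_sum fun c _ => by
                rw [← sq_abs]
                exact pow_le_pow_left₀ (abs_nonneg _) (hblock j c ω) 2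
          _ = Fintype.card β * η ^ 2 := by
              rw [Finset.sum_const, Finset.card_univ, nsmul_eq_mul]
      simpa using q2
    calc Real.sqrt (∑ j ∈ range J, ∫ ω, (∑ c : β, lL (g j) (r j) (sT G.b {c}) ω ^ 2) ^ 2 ∂μ)
        ≤ Real.sqrt (∑ _j ∈ range J, (Fintype.card β * η ^ 2) ^ 2) :=
          Real.sqrt_le_sqrt (Finset.sum_le_sum fun j _ => q1 j)
      _ = Real.sqrt (J * (Fintype.card β * η ^ 2) ^ 2) := by
          rw [Finset.sum_const, Finset.card_range, nsmul_eq_mul]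
      _ = Real.sqrt J * (Fintype.card β * η ^ 2) := by
          rw [Real.sqrt_mul (by positivity), Real.sqrt_sq hnn]
  -- replacing X by Y
  have hXm : Measurable[mΩ] (fun ω => ∑ w ∈ A, a w * h w ω) :=
    Finset.measurable_sum _ fun w _ => (R.measΩ w).const_mul _
  have hYm : Measurable[mΩ] (fun ω => ∑ j ∈ range J, ∑ i, g j i * r j i ω) :=
    Finset.measurable_sum _ fun j _ => Finset.measurable_sum _ fun i _ =>
      ((rr_meas R G J j i).mono (R.hF _) le_rfl).const_mul _
  have hXY : MemLp (fun ω => ∑ w ∈ A, a w * h w ω - ∑ j ∈ range J, ∑ i, g j i * r j i ω) 2 μ :=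
    (memLp_finsetSum _ fun w _ => ((R.bm w).memLp 2).const_mul (a w)).sub
      (memLp_finsetSum _ fun j _ => memLp_finsetSum _ fun i _ => (hrm j i).const_mul (g j i))
  have h4 : ‖∫ ω, ei (∑ w ∈ A, a w * h w ω) ∂μ -
      ∫ ω, ei (∑ j ∈ range J, ∑ i, g j i * r j i ω) ∂μ‖ ≤
      Real.sqrt (err2 (msd μ h) G A a g J) := by
    rw [← integral_sub (integrable_ei hXm) (integrable_ei hYm)]
    refine (norm_integral_le_integral_norm _).trans ?_
    refine le_trans ?_ (integral_abs_le_sqrt hXY (int_sq_XY R G W A hAT a ha g).le)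
    exact integral_mono_of_nonneg (ae_of_all _ fun ω => norm_nonneg _)
      (hXY.integrable (by norm_num)).abs (ae_of_all _ fun ω => norm_ei_sub_ei_le _ _)
  calc ‖∫ ω, ei (∑ w ∈ A, a w * h w ω) ∂μ - ((Real.exp (-s / 2) : ℝ) : ℂ)‖
      ≤ ‖∫ ω, ei (∑ w ∈ A, a w * h w ω) ∂μ -
          ∫ ω, ei (∑ j ∈ range J, ∑ i, g j i * r j i ω) ∂μ‖ +
        ‖∫ ω, ei (∑ j ∈ range J, ∑ i, g j i * r j i ω) ∂μ -
          ((Real.exp (-s / 2) : ℝ) : ℂ)‖ := norm_sub_le_norm_sub_add_norm_sub _ _ _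
    _ ≤ Real.sqrt (err2 (msd μ h) G A a g J) +
        (2 * ∑ j ∈ range J, (4 * cross μ (g j) (r j) G.b univ +
          η * ∑ c : β, ∫ ω, lL (g j) (r j) (sT G.b {c}) ω ^ 2 ∂μ) +
        (s + 4) * (∫ ω, |∑ j ∈ range J, ∑ c : β, lL (g j) (r j) (sT G.b {c}) ω ^ 2 - s| ∂μ +
          Real.sqrt (∑ j ∈ range J, ∫ ω,
            (∑ c : β, lL (g j) (r j) (sT G.b {c}) ω ^ 2) ^ 2 ∂μ))) := add_le_add h4 hclt
    _ ≤ _ := by
        rw [h1]
        have := mul_le_mul_of_nonneg_left (add_le_add h2 h3) (show 0 ≤ s + 4 by linarith)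
        linarith

end Vale.Agent.P153.Asm
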